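import Vale.Agent.P214.QP.Main
import Vale.Agent.P214.INT.Loc
import Vale.Agent.P214.Skel.Defs

/-!
# P214, block QP: the version for `Skel.IntCyl` (lower density `cg m`)
-/

open Set Filter Topology MeasureTheory Metric
open scoped RealInnerProductSpace

set_option linter.all false

namespace Vale.Agent.P214.QP

open Vale.Agent.P214.FV Vale.Agent.P214.ODE

variable {E : Type*} [NormedAddCommGroup E] [InnerProductSpace ℝ E] [FiniteDimensional ℝ E]
  [MeasurableSpace E] [BorelSpace E]
variable {m Q : ℕ} {T : Submodule ℝ E} {z : E} {R h δ : ℝ} {ν : Measure E} {P : E → E →L[ℝ] E}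

/-- the smoothed ratio converges at points with an approximate tangent plane -/
lemma tendsto_ratio_tangent {y : E} {q : ℕ} {S : Submodule ℝ E} (hy : IsApproxTangent m ν y q S) :
    Tendsto (ratio m ν y) (𝓝[>] 0) (𝓝 (q * cg m)) := by
  obtain ⟨hfin, hlim⟩ := hy
  have hcont : Continuous fun y : E => prof (‖y‖ ^ 2) := continuous_prof.comp (by fun_prop)
  have hsupp : HasCompactSupport fun y : E => prof (‖y‖ ^ 2) := by
    refine HasCompactSupport.intro (isCompact_closedBall (0 : E) 1) ?_
    intro y hy
    rw [mem_closedBall, dist_zero_right, not_le] at hy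
    exact prof_of_one_le (by nlinarith)
  have h1 := hlim _ hcont hsupp
  rw [integral_plane hfin] at h1
  refine h1.congr' ?_
  filter_upwards [self_mem_nhdsWithin] with r hr
  have hr0 : 0 < r := hr
  unfold ratio
  congr 1
  refine integral_congr_ae (Eventually.of_forall fun x => ?_)
  simp only [cut, norm_smul, norm_inv, Real.norm_eq_abs, abs_of_pos hr0]
  congr 1
  field_simp

/-- the density of an integral cylinder measure is at least one -/
lemma densLow_intCyl (hI : Skel.IntCyl m Q T z R h δ ν P) :
    DensLow m (T.starProjection ⁻¹' (ball z R)) ν (cg m) := by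
  filter_upwards [hI.int] with y hy hyO c' hc'
  obtain ⟨q, hq, S, -, hS⟩ := hy hyO
  have h1 := tendsto_ratio_tangent hS
  have hq1 : (1:ℝ) ≤ q := by exact_mod_cast hq
  have hcg := cg_pos m
  have hlt : c' < q * cg m := by nlinarith
  refine Eventually.frequently ?_
  filter_upwards [h1.eventually (lt_mem_nhds hlt)] with r hr using hr.le

/-- **lower density of the support points** -/
lemma low_intCyl (hI : Skel.IntCyl m Q T z R h δ ν P) {y : E} (hy : y ∈ ν.support) {s : ℝ}
    (hs : 0 < s) (hb : ‖T.starProjection y - z‖ + s < R) :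
    cg m * s ^ m ≤ ν.real (closedBall y s) := by
  haveI := hI.cyl.fin
  have hloc := INT.locStat_of_cylStat hI.cyl
  have hball : closedBall y s ⊆ T.starProjection ⁻¹' (ball z R) := by
    intro x hx
    rw [mem_preimage, mem_ball, dist_eq_norm]
    calc ‖T.starProjection x - z‖ = ‖T.starProjection (x - y) + (T.starProjection y - z)‖ := by
          rw [map_sub]; congr 1; abel
      _ ≤ s + ‖T.starProjection y - z‖ := (norm_add_le _ _).trans (by
          gcongr
          exact (norm_star_le T _).trans (by rw [← dist_eq_norm]; exact hx))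
      _ < R := by linarith
  have h1 := LocStat.ratio_ge hloc (densLow_intCyl hI) hy hs hball
  unfold ratio at h1
  rw [le_div_iff₀ (by positivity)] at h1
  refine h1.trans ?_
  have h2 : ν.real (closedBall y s) = ∫ x, (closedBall y s).indicator (fun _ => (1:ℝ)) x ∂ν := by
    rw [integral_indicator measurableSet_closedBall]; simp
  rw [h2]
  refine integral_mono_of_nonneg (Eventually.of_forall fun x => prof_nonneg _)
    ((integrable_const (1:ℝ)).indicator measurableSet_closedBall) (Eventually.of_forall fun x => ?_)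
  by_cases hx : x ∈ closedBall y s
  · simp only [indicator_of_mem hx]
    exact prof_le_one (by positivity)
  · simp only [indicator_of_notMem hx]
    refine le_of_eq (prof_of_one_le ?_)
    rw [mem_closedBall, dist_eq_norm, not_le] at hx
    rw [one_le_div (by positivity)]
    gcongr

/-- **Representatives and Q-valued Poincaré inequality, integral version.**  `V` integral and
cylindrically stationary over `ball z R`, `p ∈ T` with `‖p - z‖ + 51 t ≤ R`. -/
theorem qpoincare_int (hI : Skel.IntCyl m Q T z R h δ ν P) {ε t A : ℝ} {p : E} (hp : p ∈ T)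
    (hε : 0 < ε) (hε1 : ε ≤ 1) (ht : 0 < t) (hpR : ‖p - z‖ + 51 * t ≤ R)
    (hmass : ν.real (bset T p (40 * t)) ≤ A * t ^ m)
    (hexc : Dex T P ν p (40 * t) ≤ dQP m (cg m) ε * t ^ m) :
    ∃ x0 ∈ T, ∃ S : Finset E,
      GoodPoint m T (ball z R) ν P (cg m) (cg m * ε ^ (m + 3) / (64 ^ m * 40000)) t (Cgc m) p x0 ∧
      (∀ c, c ∈ S ↔ c ∈ Tᗮ ∧ x0 + c ∈ ν.support) ∧ (S.card : ℝ) ≤ Cgc m * A * 2 ^ m / cg m ∧
      (∀ y ∈ ν.support, ‖bx T x0 y‖ ≤ 8 * t → ∃ c ∈ S, ‖co T y - c‖ ≤ 2 * ε * ‖bx T x0 y‖) ∧
      ∫ y in bset T x0 (4 * t), infDist (co T y) S ^ 2 ∂ν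
        ≤ 57 * 8 ^ m * Cgc m * t ^ 2 * Dex T P ν p (40 * t) := by
  have hpp : T.starProjection p = p := Submodule.starProjection_eq_self_iff.2 hp
  refine qpoincare hI.cyl hp (cg_pos m) hε hε1 ht ?_ ?_ hmass hexc
  · intro x hx hx2
    rw [hpp] at hx2
    rw [mem_ball, dist_eq_norm]
    calc ‖x - z‖ = ‖(x - p) + (p - z)‖ := by congr 1; abel
      _ ≤ 50 * t + ‖p - z‖ := (norm_add_le _ _).trans (by gcongr)
      _ < R := by linarith
  · intro y hy hyt s hs hst
    refine low_intCyl hI hy hs ?_
    rw [bx_of_mem hp] at hyt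
    calc ‖T.starProjection y - z‖ + s = ‖(T.starProjection y - p) + (p - z)‖ + s := by
          congr 2; abel
      _ ≤ 9 * t + ‖p - z‖ + 8 * t := by
          gcongr
          exact (norm_add_le _ _).trans (by gcongr)
      _ < R := by linarith

end Vale.Agent.P214.QP
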