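import Mathlib
import Vale.Agent.P214.ODE.Pack
import Vale.Agent.P214.FV.Second

/-!
# P214, block MEAN: how kernel means change with the scale

The kernel is `prof s = (1-s)_+^2`, `cub s = (1-s)_+^3/6`.  `Dex z t = ∫_{|p(y-z)|<t} tilt dν`.
For a `C²` function `F` with `|F| ≤ B`, `|tr (D²F P)| ≤ Λ tilt` over the base ball,
`|H_F'(t)| ≤ t^{-m-1} (Λ t² + 5 B) Dex t`, `H_F(t) = t^{-m} ∫ prof(|x|²/t²) F dν`.
-/

open Set Filter Topology MeasureTheory Metric
open scoped RealInnerProductSpace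

set_option linter.all false

namespace Vale.Agent.P214.QP

open Vale.Agent.P214.FV Vale.Agent.P214.ODE

/-- cubic profile -/
noncomputable def cub (s : ℝ) : ℝ := (max (1 - s) 0) ^ 3 / 6

lemma cub_nonneg (s : ℝ) : 0 ≤ cub s := by unfold cub; positivity

lemma cub_of_one_le {s : ℝ} (h : 1 ≤ s) : cub s = 0 := by
  unfold cub; rw [max_eq_right (by linarith)]; simp

lemma cub_le {s : ℝ} (h : 0 ≤ s) : cub s ≤ 1 / 6 := by
  unfold cub
  have h1 : max (1 - s) 0 ≤ 1 := max_le (by linarith) (by norm_num)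
  have h2 : (0:ℝ) ≤ max (1 - s) 0 := le_max_right _ _
  have : (max (1 - s) 0) ^ 3 ≤ 1 := pow_le_one₀ h2 h1
  linarith

lemma le_cub {s t : ℝ} (h : s ≤ t) (ht : t ≤ 1) : (1 - t) ^ 3 / 6 ≤ cub s := by
  unfold cub
  have h1 : 1 - t ≤ max (1 - s) 0 := (by linarith : 1 - t ≤ 1 - s).trans (le_max_left _ _)
  have h2 : 0 ≤ 1 - t := by linarith
  gcongr

lemma hasDerivAt_cub (s : ℝ) : HasDerivAt cub (-(prof s) / 2) s := by
  rcases lt_trichotomy s 1 with h | h | h
  · have h1 : HasDerivAt (fun s : ℝ => (1 - s) ^ 3 / 6) (-(prof s) / 2) s := by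
      have := (((hasDerivAt_id s).const_sub 1).pow 3).div_const 6
      refine this.congr_deriv ?_
      unfold prof; rw [max_eq_left (by linarith)]; simp; ring
    refine h1.congr_of_eventuallyEq ?_
    filter_upwards [Iio_mem_nhds h] with u hu
    unfold cub; rw [max_eq_left (by linarith [mem_Iio.mp hu])]
  · subst h
    have h0 : prof 1 = 0 := prof_of_one_le le_rfl
    rw [h0, neg_zero, zero_div]
    rw [hasDerivAt_iff_isLittleO]
    have hb : (fun x' => cub x' - cub 1 - (x' - 1) • (0:ℝ)) =O[𝓝 1] fun x' => (x' - 1) ^ 2 := by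
      refine Asymptotics.IsBigO.of_bound 1 ?_
      filter_upwards [Ioi_mem_nhds (show (0:ℝ) < 1 by norm_num)] with u hu0
      rw [cub_of_one_le le_rfl]
      simp only [sub_zero, smul_zero, Real.norm_eq_abs, one_mul]
      rw [abs_of_nonneg (cub_nonneg _), abs_of_nonneg (sq_nonneg _)]
      unfold cub
      rcases le_total (1 - u) 0 with hu | hu
      · rw [max_eq_right hu]; nlinarith [sq_nonneg (u - 1)]
      · rw [max_eq_left hu]
        have h3 : 1 - u ≤ 1 := by have := mem_Ioi.1 hu0; linarith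
        nlinarith [sq_nonneg (1 - u), mul_nonneg (sq_nonneg (1 - u)) (sub_nonneg.2 h3)]
    refine hb.trans_isLittleO ?_
    have : Tendsto (fun x : ℝ => x - 1) (𝓝 1) (𝓝 0) := by
      have h : Continuous fun x : ℝ => x - 1 := by fun_prop
      simpa using h.tendsto 1
    exact (Asymptotics.isLittleO_pow_id one_lt_two).comp_tendsto this
  · have h1 : HasDerivAt (fun _ : ℝ => (0:ℝ)) (-(prof s) / 2) s := by
      rw [prof_of_one_le h.le, neg_zero, zero_div]; exact hasDerivAt_const _ _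
    refine h1.congr_of_eventuallyEq ?_
    filter_upwards [Ioi_mem_nhds h] with u hu
    exact cub_of_one_le (mem_Ioi.mp hu).le

/-- the standard kernel pair -/
lemma kern : Kern prof (fun s => -dprof s) cub where
  pk := ⟨hasDerivAt_prof, continuous_dprof.neg, fun _ h => prof_of_one_le h⟩
  pK := ⟨hasDerivAt_cub, (continuous_prof.neg).div_const 2, fun _ h => cub_of_one_le h⟩
  nonneg := prof_nonneg

lemma contDiff_cub : ContDiff ℝ 2 cub := kern.contDiff_two

variable {E : Type*} [NormedAddCommGroup E] [InnerProductSpace ℝ E] [FiniteDimensional ℝ E]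

lemma otilt_eq (T : Submodule ℝ E) (P : E → E →L[ℝ] E) (y : E) :
    ODE.tilt T P y = FV.tilt T (P y) := (FV.tilt_eq T (P y)).symm

/-! ### hessian bounds -/

/-- trace form: `hess F P ≤ tilt` when `D²F(v,v) ≤ |q v|²` -/
lemma hess_le_tilt {F : E → ℝ} {y : E} {T S : Submodule ℝ E} {Λ : ℝ}
    (h : ∀ v, ⟪v, fderiv ℝ (grad F) y v⟫ ≤ Λ * ‖co T v‖ ^ 2) :
    hess F S.starProjection y ≤ Λ * FV.tilt T S.starProjection := by
  have h1 : hess F S.starProjection y
      = tr (S.starProjection.comp ((fderiv ℝ (grad F) y).comp S.starProjection)) := by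
    rw [hess, tr_comp_comm S.starProjection, ContinuousLinearMap.comp_assoc, star_comp_self]
  rw [h1, ← hs_co_comp, hs, tr_eq_sum (stdOrthonormalBasis ℝ E), Finset.mul_sum]
  refine Finset.sum_le_sum fun k _ => ?_
  simp only [ContinuousLinearMap.comp_apply]
  rw [← inner_star]
  exact h _

/-- the vertical window `(1 - |q y - c|²/ρ²)_+^3` -/
noncomputable def win (T : Submodule ℝ E) (c : E) (ρ : ℝ) (y : E) : ℝ :=
  6 * cub (‖hgt T c y‖ ^ 2 / ρ ^ 2)

lemma win_nonneg (T : Submodule ℝ E) (c : E) (ρ : ℝ) (y : E) : 0 ≤ win T c ρ y := by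
  unfold win; have := cub_nonneg (‖hgt T c y‖ ^ 2 / ρ ^ 2); linarith

lemma win_le_one (T : Submodule ℝ E) (c : E) (ρ : ℝ) (y : E) : win T c ρ y ≤ 1 := by
  unfold win; have := cub_le (s := ‖hgt T c y‖ ^ 2 / ρ ^ 2) (by positivity); linarith

lemma win_eq_zero {T : Submodule ℝ E} {c : E} {ρ : ℝ} (hρ : 0 < ρ) {y : E}
    (h : ρ ≤ ‖hgt T c y‖) : win T c ρ y = 0 := by
  unfold win
  rw [cub_of_one_le, mul_zero]
  rw [one_le_div (by positivity)]
  gcongr

lemma win_ge {T : Submodule ℝ E} {c : E} {ρ : ℝ} (hρ : 0 < ρ) {y : E}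
    (h : ‖hgt T c y‖ ≤ ρ / 2) : 27 / 64 ≤ win T c ρ y := by
  unfold win
  have h1 : ‖hgt T c y‖ ^ 2 / ρ ^ 2 ≤ 1 / 4 := by
    rw [div_le_iff₀ (by positivity)]
    have : ‖hgt T c y‖ ^ 2 ≤ (ρ / 2) ^ 2 := by gcongr
    nlinarith
  have := le_cub h1 (by norm_num)
  norm_num at this
  linarith

lemma contDiff_win (T : Submodule ℝ E) (c : E) (ρ : ℝ) : ContDiff ℝ 2 (win T c ρ) := by
  unfold win
  exact contDiff_const.mul (contDiff_cub.comp (((contDiff_hgt T c).norm_sq ℝ).div_const _))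

lemma abs_hess_win_le {T S : Submodule ℝ E} {c : E} (hc : c ∈ Tᗮ) {ρ : ℝ} (hρ : 0 < ρ) (y : E) :
    |hess (win T c ρ) S.starProjection y| ≤ 30 / ρ ^ 2 * FV.tilt T S.starProjection := by
  set κ : ℝ → ℝ := fun s => 6 * cub (s / ρ ^ 2) with hκ
  have hκ2 : ContDiff ℝ 2 κ := contDiff_const.mul (contDiff_cub.comp (contDiff_id.div_const _))
  have hd1 : ∀ s, HasDerivAt κ (-(3 * prof (s / ρ ^ 2) / ρ ^ 2)) s := by
    intro s
    have h1 : HasDerivAt (fun s : ℝ => s / ρ ^ 2) (1 / ρ ^ 2) s := (hasDerivAt_id s).div_const _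
    have h2 := ((hasDerivAt_cub (s / ρ ^ 2)).comp s h1).const_mul 6
    refine h2.congr_deriv ?_
    ring
  have hd1' : deriv κ = fun s => -(3 * prof (s / ρ ^ 2) / ρ ^ 2) := funext fun s => (hd1 s).deriv
  have hd2 : ∀ s, HasDerivAt (deriv κ) (3 * dprof (s / ρ ^ 2) / ρ ^ 4) s := by
    intro s
    rw [hd1']
    have h1 : HasDerivAt (fun s : ℝ => s / ρ ^ 2) (1 / ρ ^ 2) s := (hasDerivAt_id s).div_const _
    have h2 := ((((hasDerivAt_prof (s / ρ ^ 2)).comp s h1).const_mul 3).div_const (ρ ^ 2)).neg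
    refine h2.congr_deriv ?_
    field_simp
  have hv : win T c ρ = vrad T c κ := rfl
  set u := ‖hgt T c y‖ ^ 2 / ρ ^ 2 with hu
  have hu0 : 0 ≤ u := by positivity
  have ht0 : 0 ≤ FV.tilt T S.starProjection := FV.tilt_nonneg S T
  have hin0 : 0 ≤ ⟪hgt T c y, S.starProjection (hgt T c y)⟫ := by
    rw [inner_star_self]; positivity
  have hin1 : ⟪hgt T c y, S.starProjection (hgt T c y)⟫
      ≤ FV.tilt T S.starProjection * ‖hgt T c y‖ ^ 2 := by
    rw [inner_star_self]; exact norm_sq_star_le_of_mem (hgt_mem hc y)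
  rw [hv, hess_vrad hc hκ2, (hd1 _).deriv, (hd2 _).deriv, ← hu]
  have h3 : |2 * -(3 * prof u / ρ ^ 2) * FV.tilt T S.starProjection|
      ≤ 6 / ρ ^ 2 * FV.tilt T S.starProjection := by
    rw [abs_mul, abs_of_nonneg ht0]
    gcongr
    rw [abs_mul, abs_neg, abs_of_nonneg (div_nonneg (mul_nonneg (by norm_num) (prof_nonneg u))
      (by positivity)), abs_of_nonneg (by norm_num : (0:ℝ) ≤ 2)]
    have := prof_le_one hu0
    rw [← mul_div_assoc]
    gcongr
    linarith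
  have h4 : |4 * (3 * dprof u / ρ ^ 4) * ⟪hgt T c y, S.starProjection (hgt T c y)⟫|
      ≤ 24 / ρ ^ 2 * FV.tilt T S.starProjection := by
    rw [abs_mul, abs_of_nonneg hin0, abs_of_nonneg (by have := dprof_nonneg u; positivity)]
    have h5 : dprof u * u ≤ 2 := by
      rcases le_total 1 u with h | h
      · rw [dprof_of_one_le h]; simp
      · have := dprof_le_two hu0
        have := dprof_nonneg u
        nlinarith
    have h6 : ‖hgt T c y‖ ^ 2 = u * ρ ^ 2 := by rw [hu]; field_simp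
    have hdn := dprof_nonneg u
    calc 4 * (3 * dprof u / ρ ^ 4) * ⟪hgt T c y, S.starProjection (hgt T c y)⟫
        ≤ 4 * (3 * dprof u / ρ ^ 4) * (FV.tilt T S.starProjection * ‖hgt T c y‖ ^ 2) := by
          gcongr
      _ = 12 * (dprof u * u) / ρ ^ 2 * FV.tilt T S.starProjection := by
          rw [h6]; field_simp; ring
      _ ≤ 12 * 2 / ρ ^ 2 * FV.tilt T S.starProjection := by gcongr
      _ = _ := by norm_num
  calc _ ≤ 6 / ρ ^ 2 * FV.tilt T S.starProjection + 24 / ρ ^ 2 * FV.tilt T S.starProjection :=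
        (abs_add_le _ _).trans (add_le_add h3 h4)
    _ = _ := by ring

/-! ### excess over base balls -/

variable [MeasurableSpace E] [BorelSpace E]
variable {m : ℕ} {T : Submodule ℝ E} {G : Set E} {h : ℝ} {ν : Measure E} {P : E → E →L[ℝ] E}
  {z : E}

/-- the open base ball -/
def bset (T : Submodule ℝ E) (z : E) (t : ℝ) : Set E := {y | bsq T z y < t ^ 2}

lemma isOpen_bset (T : Submodule ℝ E) (z : E) (t : ℝ) : IsOpen (bset T z t) :=
  isOpen_lt (continuous_bsq T z) continuous_const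

lemma measurableSet_bset (T : Submodule ℝ E) (z : E) (t : ℝ) : MeasurableSet (bset T z t) :=
  (isOpen_bset T z t).measurableSet

lemma mem_bset {T : Submodule ℝ E} {z : E} {t : ℝ} (ht : 0 ≤ t) {y : E} :
    y ∈ bset T z t ↔ ‖bx T z y‖ < t := by
  show bsq T z y < t ^ 2 ↔ _
  unfold bsq
  constructor
  · intro h; exact lt_of_pow_lt_pow_left₀ 2 ht h
  · intro h; exact pow_lt_pow_left₀ h (norm_nonneg _) (by norm_num)

lemma bset_mono {T : Submodule ℝ E} {z : E} {s t : ℝ} (hs : 0 ≤ s) (h : s ≤ t) :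
    bset T z s ⊆ bset T z t := fun y hy => lt_of_lt_of_le (show bsq T z y < s ^ 2 from hy) (by gcongr)

lemma bset_subset {T : Submodule ℝ E} {z z' : E} {s t : ℝ} (hs : 0 ≤ s)
    (h : ‖T.starProjection z - T.starProjection z'‖ + s ≤ t) : bset T z s ⊆ bset T z' t := by
  intro y hy
  have ht : 0 ≤ t := (add_nonneg (norm_nonneg _) hs).trans h
  rw [mem_bset hs] at hy
  rw [mem_bset ht]
  rw [bx_eq] at hy ⊢
  calc ‖T.starProjection y - T.starProjection z'‖
      = ‖(T.starProjection y - T.starProjection z) + (T.starProjection z - T.starProjection z')‖ := by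
        congr 1; abel
    _ ≤ ‖T.starProjection y - T.starProjection z‖ + ‖T.starProjection z - T.starProjection z'‖ :=
        norm_add_le _ _
    _ < s + ‖T.starProjection z - T.starProjection z'‖ := by gcongr
    _ ≤ t := by linarith

/-- excess over the base ball -/
noncomputable def Dex (T : Submodule ℝ E) (P : E → E →L[ℝ] E) (ν : Measure E) (z : E) (t : ℝ) : ℝ :=
  ∫ y in bset T z t, ODE.tilt T P y ∂ν

lemma integrable_tilt (hC : CylStat m T G h ν P) : Integrable (ODE.tilt T P) ν := by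
  haveI := hC.fin
  refine Integrable.mono' (integrable_const (2 * (Module.finrank ℝ E : ℝ))) (aesm_tilt hC.meas) ?_
  filter_upwards [(CylStat.plane hC).abs_tilt_le (T := T)] with y hy
  simpa using hy

lemma tilt_restrict_nonneg (hC : CylStat m T G h ν P) (s : Set E) :
    0 ≤ᵐ[ν.restrict s] ODE.tilt T P := ae_restrict_of_ae (CylStat.tilt_nonneg hC)

lemma Dex_nonneg (hC : CylStat m T G h ν P) (t : ℝ) : 0 ≤ Dex T P ν z t :=
  integral_nonneg_of_ae (tilt_restrict_nonneg hC _)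

lemma Dex_mono_set (hC : CylStat m T G h ν P) {z z' : E} {s t : ℝ} (h : bset T z s ⊆ bset T z' t) :
    Dex T P ν z s ≤ Dex T P ν z' t :=
  setIntegral_mono_set (integrable_tilt hC).integrableOn (tilt_restrict_nonneg hC _)
    (HasSubset.Subset.eventuallyLE h)

lemma Dex_mono (hC : CylStat m T G h ν P) {s t : ℝ} (hs : 0 ≤ s) (h : s ≤ t) :
    Dex T P ν z s ≤ Dex T P ν z t := Dex_mono_set hC (bset_mono hs h)

/-- integrals controlled by the excess -/
lemma integral_le_Dex (hC : CylStat m T G h ν P) {g : E → ℝ} {c t : ℝ}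
    (h1 : ∀ᵐ y ∂ν, y ∈ bset T z t → g y ≤ c * ODE.tilt T P y)
    (h2 : ∀ y, y ∉ bset T z t → g y = 0) (hg : Integrable g ν) :
    ∫ y, g y ∂ν ≤ c * Dex T P ν z t := by
  have h3 : ∫ y, g y ∂ν = ∫ y in bset T z t, g y ∂ν :=
    (setIntegral_eq_integral_of_forall_compl_eq_zero h2).symm
  rw [h3, Dex, ← integral_const_mul]
  refine setIntegral_mono_on_ae hg.integrableOn ((integrable_tilt hC).const_mul _).integrableOn
    (measurableSet_bset T z t) h1

lemma abs_integral_le_Dex (hC : CylStat m T G h ν P) {g : E → ℝ} {c t : ℝ}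
    (h1 : ∀ᵐ y ∂ν, y ∈ bset T z t → |g y| ≤ c * ODE.tilt T P y)
    (h2 : ∀ y, y ∉ bset T z t → g y = 0) (hg : Integrable g ν) :
    |∫ y, g y ∂ν| ≤ c * Dex T P ν z t :=
  (abs_integral_le_integral_abs).trans
    (integral_le_Dex hC h1 (fun y hy => by simp [h2 y hy]) hg.abs)

lemma integrable_prof_mul (hC : CylStat m T G h ν P) {ψ : ℝ → ℝ} (hψ : Continuous ψ)
    (hψ0 : ∀ s, 1 ≤ s → ψ s = 0) {w : E → ℝ} (hw : AEStronglyMeasurable w ν) {t B : ℝ} (ht : 0 < t)
    (hb : ∀ᵐ y ∂ν, y ∈ bset T z t → |w y| ≤ B) :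
    Integrable (fun y => ψ (bsq T z y / t ^ 2) * w y) ν := by
  haveI := hC.fin
  exact integrable_kernel hψ hψ0 (continuous_bsq T z).aestronglyMeasurable (bsq_nonneg T z) hw hb ht
    le_rfl

lemma not_bset {t : ℝ} (ht : 0 < t) {y : E} (hy : y ∉ bset T z t) : 1 ≤ bsq T z y / t ^ 2 := by
  rw [one_le_div (by positivity)]
  exact not_lt.1 hy

lemma abs_tilt_bd (hC : CylStat m T G h ν P) :
    ∀ᵐ y ∂ν, |ODE.tilt T P y| ≤ 2 * (Module.finrank ℝ E) :=
  (CylStat.plane hC).abs_tilt_le (T := T)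

/-- the quartic error is controlled -/
lemma abs_errK_le (hC : CylStat m T G h ν P) {F : E → ℝ} (hF : Continuous F) {t B : ℝ}
    (ht : 0 < t) (hB : 0 ≤ B) (hFB : ∀ᵐ y ∂ν, y ∈ bset T z t → |F y| ≤ B) :
    |errK m T z prof (fun s => -dprof s) F P ν t| ≤ t ^ (-(m : ℤ)) * (5 * B * Dex T P ν z t) := by
  haveI := hC.fin
  unfold errK
  rw [abs_mul, abs_of_nonneg (zpow_nonneg ht.le _)]
  refine mul_le_mul_of_nonneg_left ?_ (zpow_nonneg ht.le _)
  have hae : ∀ᵐ y ∂ν, y ∈ bset T z t → |F y * (prof (bsq T z y / t ^ 2) * ODE.tilt T P y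
      + 2 * (-dprof (bsq T z y / t ^ 2)) / t ^ 2 * ODE.rad T P z y)| ≤ 5 * B * ODE.tilt T P y := by
    filter_upwards [hFB, CylStat.tilt_nonneg hC, CylStat.rad_le_tilt hC z] with y h1 h2 h3 hy
    have hu0 : 0 ≤ bsq T z y / t ^ 2 := div_nonneg (bsq_nonneg _ _ _) (by positivity)
    have h4 := prof_le_one hu0
    have h5 := prof_nonneg (bsq T z y / t ^ 2)
    have h6 := dprof_le_two hu0
    have h7 := dprof_nonneg (bsq T z y / t ^ 2)
    have h8 : bsq T z y ≤ t ^ 2 := le_of_lt hy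
    rw [abs_mul]
    have h9 : |prof (bsq T z y / t ^ 2) * ODE.tilt T P y
      + 2 * (-dprof (bsq T z y / t ^ 2)) / t ^ 2 * ODE.rad T P z y| ≤ 5 * ODE.tilt T P y := by
      have e1 : |prof (bsq T z y / t ^ 2) * ODE.tilt T P y| ≤ 1 * ODE.tilt T P y := by
        rw [abs_of_nonneg (mul_nonneg h5 h2)]; gcongr
      have e2 : |2 * (-dprof (bsq T z y / t ^ 2)) / t ^ 2 * ODE.rad T P z y|
          ≤ 4 * ODE.tilt T P y := by
        rw [show 2 * (-dprof (bsq T z y / t ^ 2)) / t ^ 2 * ODE.rad T P z y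
          = -(2 * dprof (bsq T z y / t ^ 2) / t ^ 2 * ODE.rad T P z y) by ring, abs_neg,
          abs_of_nonneg (mul_nonneg (by positivity) (ODE.rad_nonneg _))]
        have h10 : ODE.rad T P z y ≤ t ^ 2 * ODE.tilt T P y :=
          h3.trans (mul_le_mul_of_nonneg_right h8 h2)
        calc 2 * dprof (bsq T z y / t ^ 2) / t ^ 2 * ODE.rad T P z y
            ≤ 2 * 2 / t ^ 2 * (t ^ 2 * ODE.tilt T P y) :=
              mul_le_mul (by gcongr) h10 (ODE.rad_nonneg _) (by positivity)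
          _ = 4 * ODE.tilt T P y := by field_simp; ring
      calc _ ≤ 1 * ODE.tilt T P y + 4 * ODE.tilt T P y := (abs_add_le _ _).trans (add_le_add e1 e2)
        _ = _ := by ring
    calc _ ≤ B * (5 * ODE.tilt T P y) := mul_le_mul (h1 hy) h9 (abs_nonneg _) hB
      _ = _ := by ring
  refine abs_integral_le_Dex hC hae ?_ ?_
  · intro y hy
    have h1 := not_bset ht hy
    simp only [prof_of_one_le h1, dprof_of_one_le h1]; simp
  · have i1 := integrable_prof_mul hC (z := z) (ψ := prof) continuous_prof (fun s hs => prof_of_one_le hs)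
      (w := fun y => F y * ODE.tilt T P y) (B := B * (2 * (Module.finrank ℝ E)))
      (hF.aestronglyMeasurable.mul (aesm_tilt hC.meas)) ht (by
        filter_upwards [hFB, abs_tilt_bd hC] with y h1 h2 hy
        rw [abs_mul]; exact mul_le_mul (h1 hy) h2 (abs_nonneg _) hB)
    have i2 := integrable_prof_mul hC (z := z) (ψ := dprof) continuous_dprof (fun s hs => dprof_of_one_le hs)
      (w := fun y => F y * ODE.rad T P z y) (B := B * t ^ 2)
      (hF.aestronglyMeasurable.mul (aesm_rad hC.meas)) ht (by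
        filter_upwards [hFB, (CylStat.plane hC).rad_le (T := T) (z := z)] with y h1 h2 hy
        rw [abs_mul, abs_of_nonneg (ODE.rad_nonneg y)]
        exact mul_le_mul (h1 hy) (h2.trans (le_of_lt hy)) (ODE.rad_nonneg _) hB)
    refine (i1.sub (i2.const_mul (2 / t ^ 2))).congr (Eventually.of_forall fun y => ?_)
    simp only [Pi.sub_apply]
    ring

/-- one-sided hessian term -/
lemma hessK_le (hC : CylStat m T G h ν P) {F : E → ℝ} (hF : ContDiff ℝ 2 F) {t Λ : ℝ}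
    (ht : 0 < t) (hG : BallIn T G z t) (hΛ : 0 ≤ Λ)
    (hFh : ∀ᵐ y ∂ν, y ∈ bset T z t → hess F (P y) y ≤ Λ * ODE.tilt T P y) :
    hessK m T z cub F P ν t ≤ t ^ (-(m : ℤ)) * (Λ * t ^ 2 * Dex T P ν z t) := by
  unfold hessK
  have e3 : t ^ (2 - (m : ℤ)) = t ^ (-(m : ℤ)) * t ^ 2 := by
    rw [show (2 - (m : ℤ)) = -(m : ℤ) + 2 by ring, zpow_add₀ ht.ne']
    norm_cast
  have i1 : Integrable (fun y => cub (bsq T z y / t ^ 2) * hess F (P y) y) ν :=
    hC.integrable_prod₁ (φ := fun y => cub (bsq T z y / t ^ 2)) (W := grad F)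
      (contDiff_profile kern.pK t).continuous (contDiff_grad hF)
      (baseCpt_of_zero hG fun y hy => profile_zero kern.pK ht y hy)
  have h1 : ∫ y, cub (bsq T z y / t ^ 2) * hess F (P y) y ∂ν ≤ Λ * Dex T P ν z t := by
    refine integral_le_Dex hC ?_ ?_ i1
    · filter_upwards [hFh, CylStat.tilt_nonneg hC] with y h2 h3 hy
      have hu0 : 0 ≤ bsq T z y / t ^ 2 := div_nonneg (bsq_nonneg _ _ _) (by positivity)
      have h4 := cub_le hu0
      have h5 := cub_nonneg (bsq T z y / t ^ 2)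
      calc cub (bsq T z y / t ^ 2) * hess F (P y) y
          ≤ cub (bsq T z y / t ^ 2) * (Λ * ODE.tilt T P y) := by gcongr; exact h2 hy
        _ ≤ 1 * (Λ * ODE.tilt T P y) := by gcongr; linarith
        _ = _ := by ring
    · intro y hy
      rw [cub_of_one_le (not_bset ht hy)]; simp
  rw [e3]
  calc t ^ (-(m : ℤ)) * t ^ 2 * ∫ y, cub (bsq T z y / t ^ 2) * hess F (P y) y ∂ν
      ≤ t ^ (-(m : ℤ)) * t ^ 2 * (Λ * Dex T P ν z t) := by gcongr
    _ = _ := by ring

/-- two-sided hessian term -/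
lemma abs_hessK_le (hC : CylStat m T G h ν P) {F : E → ℝ} (hF : ContDiff ℝ 2 F) {t Λ : ℝ}
    (ht : 0 < t) (hG : BallIn T G z t) (hΛ : 0 ≤ Λ)
    (hFh : ∀ᵐ y ∂ν, y ∈ bset T z t → |hess F (P y) y| ≤ Λ * ODE.tilt T P y) :
    |hessK m T z cub F P ν t| ≤ t ^ (-(m : ℤ)) * (Λ * t ^ 2 * Dex T P ν z t) := by
  unfold hessK
  have e3 : t ^ (2 - (m : ℤ)) = t ^ (-(m : ℤ)) * t ^ 2 := by
    rw [show (2 - (m : ℤ)) = -(m : ℤ) + 2 by ring, zpow_add₀ ht.ne']
    norm_cast
  have i1 : Integrable (fun y => cub (bsq T z y / t ^ 2) * hess F (P y) y) ν :=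
    hC.integrable_prod₁ (φ := fun y => cub (bsq T z y / t ^ 2)) (W := grad F)
      (contDiff_profile kern.pK t).continuous (contDiff_grad hF)
      (baseCpt_of_zero hG fun y hy => profile_zero kern.pK ht y hy)
  have h1 : |∫ y, cub (bsq T z y / t ^ 2) * hess F (P y) y ∂ν| ≤ Λ * Dex T P ν z t := by
    refine abs_integral_le_Dex hC ?_ ?_ i1
    · filter_upwards [hFh, CylStat.tilt_nonneg hC] with y h2 h3 hy
      have hu0 : 0 ≤ bsq T z y / t ^ 2 := div_nonneg (bsq_nonneg _ _ _) (by positivity)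
      have h4 := cub_le hu0
      have h5 := cub_nonneg (bsq T z y / t ^ 2)
      rw [abs_mul, abs_of_nonneg h5]
      calc cub (bsq T z y / t ^ 2) * |hess F (P y) y|
          ≤ cub (bsq T z y / t ^ 2) * (Λ * ODE.tilt T P y) := by gcongr; exact h2 hy
        _ ≤ 1 * (Λ * ODE.tilt T P y) := by gcongr; linarith
        _ = _ := by ring
    · intro y hy
      rw [cub_of_one_le (not_bset ht hy)]; simp
  rw [e3, abs_mul, abs_of_nonneg (by positivity : (0:ℝ) ≤ t ^ (-(m : ℤ)) * t ^ 2)]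
  calc t ^ (-(m : ℤ)) * t ^ 2 * |∫ y, cub (bsq T z y / t ^ 2) * hess F (P y) y ∂ν|
      ≤ t ^ (-(m : ℤ)) * t ^ 2 * (Λ * Dex T P ν z t) := by gcongr
    _ = _ := by ring

/-- kernel mean `t^{-m} ∫ prof(|x|²/t²) F dν` -/
noncomputable def mean (m : ℕ) (T : Submodule ℝ E) (z : E) (F : E → ℝ) (ν : Measure E) (t : ℝ) : ℝ :=
  hgtK m T z prof F ν t

/-- **Derivative of kernel means, two-sided.** -/
theorem hasDerivAt_mean (hC : CylStat m T G h ν P) {F : E → ℝ} (hF : ContDiff ℝ 2 F)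
    {t R Λ B : ℝ} (ht : 0 < t) (htR : t < R) (hG : BallIn T G z R) (hΛ : 0 ≤ Λ) (hB : 0 ≤ B)
    (hFB : ∀ᵐ y ∂ν, y ∈ bset T z t → |F y| ≤ B)
    (hFh : ∀ᵐ y ∂ν, y ∈ bset T z t → |hess F (P y) y| ≤ Λ * ODE.tilt T P y) :
    ∃ d, HasDerivAt (mean m T z F ν) d t ∧
      |d| ≤ t⁻¹ * t ^ (-(m : ℤ)) * (Λ * t ^ 2 + 5 * B) * Dex T P ν z t := by
  refine ⟨_, CylStat.height_ode hC kern hF ht htR hG, ?_⟩
  rw [abs_mul, abs_of_nonneg (inv_nonneg.2 ht.le)]
  have h1 := abs_hessK_le hC hF ht (fun x hx hx2 => hG x hx (hx2.trans htR.le)) hΛ hFh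
  have h2 := abs_errK_le hC hF.continuous ht hB hFB
  calc t⁻¹ * |hessK m T z cub F P ν t - errK m T z prof (fun s => -dprof s) F P ν t|
      ≤ t⁻¹ * (t ^ (-(m : ℤ)) * (Λ * t ^ 2 * Dex T P ν z t)
        + t ^ (-(m : ℤ)) * (5 * B * Dex T P ν z t)) := by
        gcongr
        exact (abs_sub _ _).trans (add_le_add h1 h2)
    _ = _ := by ring

/-- **Derivative of kernel means, upper bound.** -/
theorem hasDerivAt_mean_le (hC : CylStat m T G h ν P) {F : E → ℝ} (hF : ContDiff ℝ 2 F)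
    {t R Λ B : ℝ} (ht : 0 < t) (htR : t < R) (hG : BallIn T G z R) (hΛ : 0 ≤ Λ) (hB : 0 ≤ B)
    (hFB : ∀ᵐ y ∂ν, y ∈ bset T z t → |F y| ≤ B)
    (hFh : ∀ᵐ y ∂ν, y ∈ bset T z t → hess F (P y) y ≤ Λ * ODE.tilt T P y) :
    ∃ d, HasDerivAt (mean m T z F ν) d t ∧
      d ≤ t⁻¹ * t ^ (-(m : ℤ)) * (Λ * t ^ 2 + 5 * B) * Dex T P ν z t := by
  refine ⟨_, CylStat.height_ode hC kern hF ht htR hG, ?_⟩
  have h1 := hessK_le hC hF ht (fun x hx hx2 => hG x hx (hx2.trans htR.le)) hΛ hFh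
  have h2 := abs_errK_le hC hF.continuous ht hB hFB
  have h3 := (abs_le.1 h2).1
  calc t⁻¹ * (hessK m T z cub F P ν t - errK m T z prof (fun s => -dprof s) F P ν t)
      ≤ t⁻¹ * (t ^ (-(m : ℤ)) * (Λ * t ^ 2 * Dex T P ν z t)
        + t ^ (-(m : ℤ)) * (5 * B * Dex T P ν z t)) := by
        gcongr
        linarith
    _ = _ := by ring

/-- **Change of kernel means between two scales** (crude form) -/
theorem abs_mean_sub_le (hC : CylStat m T G h ν P) {F : E → ℝ} (hF : ContDiff ℝ 2 F)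
    {a b R Λ B : ℝ} (ha : 0 < a) (hab : a ≤ b) (hbR : b < R) (hG : BallIn T G z R) (hΛ : 0 ≤ Λ)
    (hB : 0 ≤ B) (hFB : ∀ᵐ y ∂ν, y ∈ bset T z b → |F y| ≤ B)
    (hFh : ∀ᵐ y ∂ν, y ∈ bset T z b → |hess F (P y) y| ≤ Λ * ODE.tilt T P y) :
    |mean m T z F ν b - mean m T z F ν a|
      ≤ (b - a) * (a⁻¹ * a ^ (-(m : ℤ)) * (Λ * b ^ 2 + 5 * B) * Dex T P ν z b) := by
  have hder : ∀ t ∈ Icc a b, ∃ d, HasDerivAt (mean m T z F ν) d t ∧
      |d| ≤ a⁻¹ * a ^ (-(m : ℤ)) * (Λ * b ^ 2 + 5 * B) * Dex T P ν z b := by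
    intro t ht
    have ht0 : 0 < t := ha.trans_le ht.1
    have hsub := bset_mono (T := T) (z := z) ht0.le ht.2
    obtain ⟨d, hd, hd2⟩ := hasDerivAt_mean hC hF ht0 (ht.2.trans_lt hbR) hG hΛ hB
      (by filter_upwards [hFB] with y hy h1 using hy (hsub h1))
      (by filter_upwards [hFh] with y hy h1 using hy (hsub h1))
    refine ⟨d, hd, hd2.trans ?_⟩
    have h3 : t ^ (-(m : ℤ)) ≤ a ^ (-(m : ℤ)) := by
      rw [zpow_neg, zpow_neg, zpow_natCast, zpow_natCast]
      gcongr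
      exact ht.1
    have h4 : t⁻¹ ≤ a⁻¹ := by gcongr; exact ht.1
    have h5 := Dex_mono (z := z) hC ht0.le ht.2
    have h6 := Dex_nonneg (z := z) hC t
    have h7 : t ^ 2 ≤ b ^ 2 := by have := ht.2; gcongr
    gcongr
  choose! d hd hd2 using hder
  have := Convex.norm_image_sub_le_of_norm_hasDerivWithin_le (f := mean m T z F ν) (f' := d)
    (s := Icc a b) (C := a⁻¹ * a ^ (-(m : ℤ)) * (Λ * b ^ 2 + 5 * B) * Dex T P ν z b)
    (fun t ht => (hd t ht).hasDerivWithinAt) (fun t ht => by rw [Real.norm_eq_abs]; exact hd2 t ht)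
    (convex_Icc a b) (left_mem_Icc.2 hab) (right_mem_Icc.2 hab)
  rw [Real.norm_eq_abs, Real.norm_eq_abs, abs_of_nonneg (sub_nonneg.2 hab)] at this
  linarith

lemma Dex_intervalIntegrable (hC : CylStat m T G h ν P) {a b : ℝ} (ha : 0 < a) (hab : a ≤ b) :
    IntervalIntegrable (fun s => s ^ (1 - (m : ℤ)) * Dex T P ν z s) volume a b := by
  have h1 : IntervalIntegrable (fun s => Dex T P ν z s) volume a b := by
    refine MonotoneOn.intervalIntegrable ?_
    intro s hs t ht hst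
    rw [uIcc_of_le hab] at hs
    exact Dex_mono hC (ha.le.trans hs.1) hst
  refine h1.continuousOn_mul ?_
  rw [uIcc_of_le hab]
  intro s hs
  exact (continuousAt_zpow₀ s _ (Or.inl (ha.trans_le hs.1).ne')).continuousWithinAt

/-- **Growth of kernel means, integrated one-sided form**: `hess F ≤ Λ tilt`, `|F| ≤ c t²` on the
base ball of radius `t`, `a ≤ t ≤ b` -/
theorem mean_sub_le_integral (hC : CylStat m T G h ν P) {F : E → ℝ} (hF : ContDiff ℝ 2 F)
    {a b R Λ c : ℝ} (ha : 0 < a) (hab : a ≤ b) (hbR : b < R) (hG : BallIn T G z R) (hΛ : 0 ≤ Λ)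
    (hc : 0 ≤ c) (hFB : ∀ t ∈ Icc a b, ∀ᵐ y ∂ν, y ∈ bset T z t → |F y| ≤ c * t ^ 2)
    (hFh : ∀ᵐ y ∂ν, y ∈ bset T z b → hess F (P y) y ≤ Λ * ODE.tilt T P y) :
    mean m T z F ν b - mean m T z F ν a
      ≤ (Λ + 5 * c) * ∫ s in a..b, s ^ (1 - (m : ℤ)) * Dex T P ν z s := by
  have hder : ∀ t ∈ Icc a b, ∃ d, HasDerivAt (mean m T z F ν) d t ∧
      d ≤ (Λ + 5 * c) * (t ^ (1 - (m : ℤ)) * Dex T P ν z t) := by
    intro t ht
    have ht0 : 0 < t := ha.trans_le ht.1
    have hsub := bset_mono (T := T) (z := z) ht0.le ht.2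
    obtain ⟨d, hd, hd2⟩ := hasDerivAt_mean_le hC hF ht0 (ht.2.trans_lt hbR) hG hΛ
      (by positivity : 0 ≤ c * t ^ 2) (hFB t ht)
      (by filter_upwards [hFh] with y hy h1 using hy (hsub h1))
    refine ⟨d, hd, hd2.trans (le_of_eq ?_)⟩
    have e3 : t ^ (1 - (m : ℤ)) = t ^ (-(m : ℤ)) * t := by
      rw [show (1 - (m : ℤ)) = -(m : ℤ) + 1 by ring, zpow_add₀ ht0.ne', zpow_one]
    rw [e3]
    field_simp
  choose! d hd hd2 using hder
  have hint := (Dex_intervalIntegrable (z := z) hC ha hab).const_mul (Λ + 5 * c)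
  have := intervalIntegral.sub_le_integral_of_hasDeriv_right_of_le (a := a) (b := b) hab
    (g := mean m T z F ν) (g' := d)
    (φ := fun s => (Λ + 5 * c) * (s ^ (1 - (m : ℤ)) * Dex T P ν z s))
    (fun t ht => (hd t ht).continuousAt.continuousWithinAt)
    (fun t ht => (hd t (Ioo_subset_Icc_self ht)).hasDerivWithinAt)
    (by
      rw [← intervalIntegrable_iff_integrableOn_Icc_of_le hab]
      exact hint)
    (fun t ht => hd2 t (Ioo_subset_Icc_self ht))
  rw [intervalIntegral.integral_const_mul] at this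
  exact this

end Vale.Agent.P214.QP
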