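import Vale.Agent.P214.QP.Lift

/-!
# P214, block QP: the fibre over a good base point and the cone bound
-/

open Set Filter Topology MeasureTheory Metric
open scoped RealInnerProductSpace

set_option linter.all false

namespace Vale.Agent.P214.QP

open Vale.Agent.P214.FV Vale.Agent.P214.ODE

variable {E : Type*} [NormedAddCommGroup E] [InnerProductSpace ℝ E] [FiniteDimensional ℝ E]
  [MeasurableSpace E] [BorelSpace E]
variable {m : ℕ} {T : Submodule ℝ E} {G : Set E} {h : ℝ} {ν : Measure E} {P : E → E →L[ℝ] E}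

/-- the fibre of the support over `x0` -/
def fib (T : Submodule ℝ E) (ν : Measure E) (x0 : E) : Set E := {c | c ∈ Tᗮ ∧ x0 + c ∈ ν.support}

/-- a base point with small excess at all scales `≤ 4 t`, lower density of the support points
over the base ball of radius `t` -/
structure GoodBase (m : ℕ) (T : Submodule ℝ E) (G : Set E) (ν : Measure E) (P : E → E →L[ℝ] E)
    (c0 δ t : ℝ) (x0 : E) : Prop where
  mem : x0 ∈ T
  ball : BallIn T G x0 (5 * t)
  exc : ∀ s, 0 < s → s ≤ 4 * t → Dex T P ν x0 s ≤ δ * s ^ m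
  low : ∀ y ∈ ν.support, ‖bx T x0 y‖ ≤ t → ∀ s, 0 < s → s ≤ t → c0 * s ^ m ≤ ν.real (closedBall y s)

/-- **Cone bound.** -/
theorem GoodBase.cone (hC : CylStat m T G h ν P) {c0 ε δ t : ℝ} {x0 y0 : E} (hc0 : 0 < c0)
    (hε : 0 < ε) (hε1 : ε ≤ 1) (hδ : δ ≤ c0 * ε ^ (m + 3) / (64 ^ m * 40000)) (ht : 0 < t)
    (hg : GoodBase m T G ν P c0 δ t x0) (hy0 : y0 ∈ ν.support) (hy0t : ‖bx T x0 y0‖ ≤ t) :
    ∃ c ∈ fib T ν x0, ‖co T y0 - c‖ ≤ 2 * ε * ‖bx T x0 y0‖ := by
  set r := ‖bx T x0 y0‖ with hrdef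
  rcases eq_or_lt_of_le (norm_nonneg (bx T x0 y0)) with h0 | hr
  · refine ⟨co T y0, ⟨co_mem T y0, ?_⟩, ?_⟩
    · have h1 : bx T x0 y0 = 0 := norm_eq_zero.1 h0.symm
      rw [bx_of_mem hg.mem, sub_eq_zero] at h1
      rw [← h1, star_add_co]; exact hy0
    · rw [sub_self, norm_zero]; positivity
  rw [← hrdef] at hr
  -- the sequence
  let Y : ℕ → Type _ := fun j => {y : E // y ∈ ν.support ∧ ‖bx T x0 y‖ ≤ r / 2 ^ j}
  have hstep : ∀ (j : ℕ) (y : Y j), ∃ y' : Y (j + 1),
      ‖co T (y' : E) - co T (y : E)‖ < ε * (r / 2 ^ j) := by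
    rintro j ⟨y, hy1, hy2⟩
    have h2 : (1:ℝ) ≤ 2 ^ j := one_le_pow₀ (by norm_num)
    have hrj : r / 2 ^ j ≤ t := (div_le_self hr.le h2).trans hy0t
    have hrj0 : 0 < r / 2 ^ j := by positivity
    obtain ⟨y', h1, h2, h3⟩ := lift (R := 5 * t) hC hg.mem hc0 hε hε1 hδ hrj0 hg.ball
      (by linarith) (hg.exc _ (by positivity) (by linarith))
      (hg.exc _ (by positivity) (by linarith)) hy2
      (hg.low y hy1 (hy2.trans hrj) _ (by positivity) (by nlinarith))
    refine ⟨⟨y', h1, h2.le.trans (le_of_eq ?_)⟩, h3⟩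
    rw [pow_succ]; field_simp
  choose f hf using hstep
  let s : (j : ℕ) → Y j := fun j => Nat.rec (motive := fun j => Y j) ⟨y0, hy0, by simp [hrdef]⟩ f j
  have hs1 : ∀ j, ‖co T (s (j + 1)).1 - co T (s j).1‖ < ε * (r / 2 ^ j) := fun j => hf j (s j)
  set g : ℕ → E := fun j => co T (s j).1 with hgdef
  have hdist : ∀ j, dist (g j) (g (j + 1)) ≤ 2 * ε * r / 2 / 2 ^ j := by
    intro j
    rw [dist_comm, dist_eq_norm]
    refine (hs1 j).le.trans (le_of_eq ?_)
    field_simp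
  obtain ⟨c, hc⟩ := cauchySeq_tendsto_of_complete (cauchySeq_of_le_geometric_two hdist)
  have hcd := dist_le_of_le_geometric_two_of_tendsto₀ hdist hc
  refine ⟨c, ⟨?_, ?_⟩, ?_⟩
  · have hcl : IsClosed (Tᗮ : Set E) := Submodule.closed_of_finiteDimensional _
    exact hcl.mem_of_tendsto hc (Eventually.of_forall fun j => co_mem T _)
  · have hb : Tendsto (fun j => T.starProjection (s j).1) atTop (𝓝 x0) := by
      rw [tendsto_iff_norm_sub_tendsto_zero]
      refine squeeze_zero (fun j => norm_nonneg _) (g := fun j : ℕ => r / 2 ^ j) (fun j => ?_) ?_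
      · rw [← bx_of_mem hg.mem]; exact (s j).2.2
      · have : Tendsto (fun j : ℕ => r * (1 / 2 : ℝ) ^ j) atTop (𝓝 (r * 0)) :=
          (tendsto_pow_atTop_nhds_zero_of_lt_one (by norm_num) (by norm_num)).const_mul r
        rw [mul_zero] at this
        refine this.congr fun j => ?_
        rw [one_div, inv_pow, div_eq_mul_inv]
    have hlim : Tendsto (fun j => (s j).1) atTop (𝓝 (x0 + c)) := by
      refine (hb.add hc).congr fun j => ?_
      exact star_add_co T _
    exact Measure.isClosed_support.mem_of_tendsto hlim (Eventually.of_forall fun j => (s j).2.1)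
  · rw [dist_eq_norm] at hcd
    exact hcd

/-- **Cardinality of the fibre.** -/
theorem fib_card_le [IsFiniteMeasure ν] {c0 A t : ℝ} {x0 : E} (hx0 : x0 ∈ T) (hc0 : 0 < c0)
    (ht : 0 < t)
    (hlow : ∀ c ∈ fib T ν x0, ∀ s, 0 < s → s ≤ t → c0 * s ^ m ≤ ν.real (closedBall (x0 + c) s))
    (hA : ∀ s, 0 < s → s ≤ t → ν.real (bset T x0 s) ≤ A * s ^ m)
    (F : Finset E) (hF : (F : Set E) ⊆ fib T ν x0) : (F.card : ℝ) ≤ A * 2 ^ m / c0 := by
  classical
  have hev : ∀ᶠ s in 𝓝[>] (0:ℝ), ∀ c ∈ F, ∀ d ∈ F, c ≠ d → s < dist c d := by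
    rw [Filter.eventually_all_finset]
    intro c hc
    rw [Filter.eventually_all_finset]
    intro d hd
    by_cases hcd : c = d
    · exact Eventually.of_forall fun s h => absurd hcd h
    · filter_upwards [mem_nhdsWithin_of_mem_nhds (Iio_mem_nhds (dist_pos.2 hcd))] with s hs _
      exact hs
  have hev2 : ∀ᶠ s in 𝓝[>] (0:ℝ), 0 < s := self_mem_nhdsWithin
  have hev3 : ∀ᶠ s in 𝓝[>] (0:ℝ), s < t := mem_nhdsWithin_of_mem_nhds (Iio_mem_nhds ht)
  obtain ⟨s, h1, hs0, hst⟩ := (hev.and (hev2.and hev3)).exists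
  have hx0' : T.starProjection x0 = x0 := Submodule.starProjection_eq_self_iff.2 hx0
  have hdisj : Set.PairwiseDisjoint (F : Set E) fun c => closedBall (x0 + c) (s / 2) := by
    intro c hc d hd hcd
    refine closedBall_disjoint_closedBall ?_
    rw [dist_add_left]
    have := h1 c hc d hd hcd
    linarith
  have hsub : (⋃ c ∈ F, closedBall (x0 + c) (s / 2)) ⊆ bset T x0 s := by
    intro y hy
    rw [mem_iUnion₂] at hy
    obtain ⟨c, hc, hy⟩ := hy
    rw [mem_bset hs0.le]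
    have hcT : T.starProjection c = 0 := by
      rw [Submodule.starProjection_apply_eq_zero_iff]
      exact (hF hc).1
    have h2 : bx T x0 y = T.starProjection (y - (x0 + c)) := by
      unfold bx
      rw [map_sub, map_sub, map_add, hcT, add_zero]
    rw [h2]
    refine (norm_star_le T _).trans_lt ?_
    rw [← dist_eq_norm]
    exact lt_of_le_of_lt hy (by linarith)
  have hsum : ∑ c ∈ F, ν.real (closedBall (x0 + c) (s / 2)) ≤ A * s ^ m := by
    rw [← measureReal_biUnion_finset hdisj fun c _ => measurableSet_closedBall]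
    exact (measureReal_mono hsub).trans (hA s hs0 hst.le)
  have hlow' : (F.card : ℝ) * (c0 * (s / 2) ^ m) ≤ A * s ^ m := by
    refine le_trans ?_ hsum
    rw [← nsmul_eq_mul]
    refine Finset.card_nsmul_le_sum _ _ _ fun c hc => ?_
    exact hlow c (hF hc) _ (by positivity) (by linarith)
  rw [le_div_iff₀ hc0]
  have hsm : 0 < s ^ m := by positivity
  rw [div_pow] at hlow'
  have h3 : (F.card : ℝ) * (c0 * (s ^ m / 2 ^ m)) = (F.card * c0 / 2 ^ m) * s ^ m := by ring
  rw [h3] at hlow'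
  have h4 := le_of_mul_le_mul_right hlow' hsm
  rw [div_le_iff₀ (by positivity)] at h4
  exact h4

/-- the fibre is finite -/
theorem fib_finite [IsFiniteMeasure ν] {c0 A t : ℝ} {x0 : E} (hx0 : x0 ∈ T) (hc0 : 0 < c0)
    (ht : 0 < t)
    (hlow : ∀ c ∈ fib T ν x0, ∀ s, 0 < s → s ≤ t → c0 * s ^ m ≤ ν.real (closedBall (x0 + c) s))
    (hA : ∀ s, 0 < s → s ≤ t → ν.real (bset T x0 s) ≤ A * s ^ m) : (fib T ν x0).Finite := by
  by_contra hinf
  obtain ⟨n, hn⟩ := exists_nat_gt (A * 2 ^ m / c0)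
  obtain ⟨F, hF1, hF2⟩ := Set.Infinite.exists_subset_card_eq hinf n
  have := fib_card_le hx0 hc0 ht hlow hA F hF1
  rw [hF2] at this
  linarith

end Vale.Agent.P214.QP
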