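import Vale.Agent.P214.QP.Soft
import Vale.Agent.P214.QP.Fibre

/-!
# P214, block QP: the `L²` bound at a good base point
-/

open Set Filter Topology MeasureTheory Metric
open scoped RealInnerProductSpace

set_option linter.all false

namespace Vale.Agent.P214.QP

open Vale.Agent.P214.FV Vale.Agent.P214.ODE

variable {E : Type*} [NormedAddCommGroup E] [InnerProductSpace ℝ E] [FiniteDimensional ℝ E]
  [MeasurableSpace E] [BorelSpace E]
variable {m : ℕ} {T : Submodule ℝ E} {G : Set E} {h : ℝ} {ν : Measure E} {P : E → E →L[ℝ] E}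

/-- lower density at the points of the fibre -/
lemma GoodBase.fib_low {c0 δ t : ℝ} {x0 : E} (ht : 0 < t) (hg : GoodBase m T G ν P c0 δ t x0) :
    ∀ c ∈ fib T ν x0, ∀ s, 0 < s → s ≤ t → c0 * s ^ m ≤ ν.real (closedBall (x0 + c) s) := by
  rintro c ⟨hc, hc2⟩ s hs hst
  refine hg.low _ hc2 ?_ s hs hst
  have hcT : T.starProjection c = 0 := by
    rw [Submodule.starProjection_apply_eq_zero_iff]; exact hc
  have hx0' : T.starProjection x0 = x0 := Submodule.starProjection_eq_self_iff.2 hg.mem
  rw [bx_of_mem hg.mem, map_add, hcT, add_zero, hx0', sub_self, norm_zero]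
  exact ht.le

/-- **The `L²` bound.** -/
theorem GoodBase.poincare (hC : CylStat m T G h ν P) {c0 δ t : ℝ} {x0 : E} (hc0 : 0 < c0)
    (hδ : δ ≤ c0 / (64 ^ m * 40000)) (ht : 0 < t) (hg : GoodBase m T G ν P c0 δ t x0) {A J : ℝ}
    (hA : ∀ s, 0 < s → s ≤ t → ν.real (bset T x0 s) ≤ A * s ^ m)
    (hJ : ∀ a, 0 < a → a ≤ t → ∫ s in a..t, s ^ (1 - (m : ℤ)) * Dex T P ν x0 s ≤ J) :
    ∫ y in bset T x0 (t / 2), infDist (co T y) (fib T ν x0) ^ 2 ∂ν ≤ 57 * t ^ m * J := by
  haveI := hC.fin
  have hJ0 : 0 ≤ J := by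
    have := hJ t ht le_rfl
    rwa [intervalIntegral.integral_same] at this
  have hcone : ∀ y ∈ ν.support, ‖bx T x0 y‖ ≤ t →
      ∃ c ∈ fib T ν x0, ‖co T y - c‖ ≤ 2 * ‖bx T x0 y‖ := by
    intro y hy hyt
    obtain ⟨c, hc, h1⟩ := hg.cone hC (ε := 1) hc0 one_pos le_rfl (by simpa using hδ) ht hy hyt
    exact ⟨c, hc, by linarith⟩
  have hfin : (fib T ν x0).Finite := fib_finite hg.mem hc0 ht (hg.fib_low ht) hA
  have hsupp : ∀ᵐ y ∂ν, y ∈ ν.support := Measure.support_mem_ae
  rcases (fib T ν x0).eq_empty_or_nonempty with hemp | hne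
  · -- no support points
    have h0 : ∫ y in bset T x0 (t / 2), infDist (co T y) (fib T ν x0) ^ 2 ∂ν = 0 := by
      rw [hemp]; simp
    rw [h0]; positivity
  set S : Finset E := hfin.toFinset with hSdef
  have hmem : ∀ c, c ∈ S ↔ c ∈ fib T ν x0 := fun c => by rw [hSdef, Set.Finite.mem_toFinset]
  have hSn : S.Nonempty := by
    obtain ⟨c, hc⟩ := hne
    exact ⟨c, (hmem c).2 hc⟩
  have hST : ∀ c ∈ S, c ∈ Tᗮ := fun c hc => ((hmem c).1 hc).1
  have hk : (0:ℝ) < S.card := by exact_mod_cast Finset.card_pos.2 hSn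
  have hk1 : (1:ℝ) ≤ S.card := by exact_mod_cast Finset.card_pos.2 hSn
  -- the claim for every small scale `a`
  have key : ∀ a, 0 < a → a ≤ t → 9 / 32 * ∫ y in bset T x0 (t / 2),
      infDist (co T y) (fib T ν x0) ^ 2 ∂ν ≤ t ^ m * (16 * J + 3 * A * a ^ 2) := by
    intro a ha hat
    set τ : ℝ := a / √(S.card) with hτdef
    have hτ : τ ≠ 0 := by rw [hτdef]; positivity
    have hτ2 : τ ^ 2 * Real.log S.card ≤ a ^ 2 := by
      rw [hτdef, div_pow, Real.sq_sqrt hk.le]
      have h1 : Real.log S.card ≤ S.card := Real.log_le_self hk.le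
      calc a ^ 2 / S.card * Real.log S.card ≤ a ^ 2 / S.card * S.card := by gcongr
        _ = a ^ 2 := by field_simp
    set F := soft T S τ with hF
    have hFc : ContDiff ℝ 2 F := contDiff_soft T hSn τ
    have hF0 : ∀ y, 0 ≤ F y := soft_nonneg hSn hτ
    have hFB : ∀ s ∈ Icc a t, ∀ᵐ y ∂ν, y ∈ bset T x0 s → |F y| ≤ 3 * s ^ 2 := by
      intro s hs
      have hs0 : 0 < s := ha.trans_le hs.1
      filter_upwards [hsupp] with y hy hys
      rw [mem_bset hs0.le] at hys
      obtain ⟨c, hc, h1⟩ := hcone y hy (hys.le.trans hs.2)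
      rw [abs_of_nonneg (hF0 y)]
      have h2 : F y ≤ qd T c y + τ ^ 2 * Real.log S.card := soft_le hτ ((hmem c).2 hc) y
      have h3 : qd T c y ≤ 2 * s ^ 2 := by
        unfold qd hgt
        have : ‖co T y - c‖ ^ 2 ≤ (2 * s) ^ 2 := by
          gcongr
          exact h1.trans (by gcongr)
        linarith
      have h4 : a ^ 2 ≤ s ^ 2 := by have := hs.1; gcongr
      linarith
    have hFh : ∀ᵐ y ∂ν, y ∈ bset T x0 t → hess F (P y) y ≤ 1 * ODE.tilt T P y := by
      filter_upwards [hC.proj] with y hy _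
      obtain ⟨S', hS', hP⟩ := hy
      rw [otilt_eq, hP]
      exact hess_soft_le hSn hST hτ y
    have h1 := mean_sub_le_integral hC hFc (a := a) (b := t) (R := 5 * t) (Λ := 1) (c := 3)
      ha hat (by linarith) hg.ball (by norm_num) (by norm_num) hFB hFh
    have h2 := hJ a ha hat
    -- upper bound at scale a
    have h3 : mean m T x0 F ν a ≤ 3 * A * a ^ 2 := by
      rw [mean_eq]
      have h4 : ∫ y, prof (bsq T x0 y / a ^ 2) * F y ∂ν ≤ 3 * a ^ 2 * ν.real (bset T x0 a) := by
        have e1 : ∫ y, prof (bsq T x0 y / a ^ 2) * F y ∂ν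
            = ∫ y in bset T x0 a, prof (bsq T x0 y / a ^ 2) * F y ∂ν := by
          refine (setIntegral_eq_integral_of_forall_compl_eq_zero fun y hy => ?_).symm
          rw [prof_of_one_le (not_bset ha hy), zero_mul]
        have e2 : 3 * a ^ 2 * ν.real (bset T x0 a) = ∫ y in bset T x0 a, (3 * a ^ 2 : ℝ) ∂ν := by
          rw [setIntegral_const, smul_eq_mul, mul_comm]
        rw [e1, e2]
        refine setIntegral_mono_on_ae (integrable_prof_mul hC continuous_prof
          (fun s hs => prof_of_one_le hs) hFc.continuous.aestronglyMeasurable ha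
          (hFB a ⟨le_rfl, hat⟩)).integrableOn (integrable_const _).integrableOn
          (measurableSet_bset T x0 a) ?_
        filter_upwards [hFB a ⟨le_rfl, hat⟩] with y hy hya
        have e3 := hy hya
        rw [abs_of_nonneg (hF0 y)] at e3
        have e4 := prof_le_one (div_nonneg (bsq_nonneg T x0 y) (sq_nonneg a))
        calc prof (bsq T x0 y / a ^ 2) * F y ≤ 1 * F y := by gcongr; exact hF0 y
          _ ≤ _ := by linarith
      have hzp : a ^ (-(m : ℤ)) = (a ^ m)⁻¹ := by rw [zpow_neg, zpow_natCast]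
      have hAa := hA a ha hat
      rw [hzp]
      calc (a ^ m)⁻¹ * ∫ y, prof (bsq T x0 y / a ^ 2) * F y ∂ν
          ≤ (a ^ m)⁻¹ * (3 * a ^ 2 * (A * a ^ m)) := by gcongr; exact h4.trans (by gcongr)
        _ = 3 * A * a ^ 2 := by field_simp
    -- lower bound at scale t
    have h5 : (t ^ m)⁻¹ * (9 / 32 * ∫ y in bset T x0 (t / 2),
        infDist (co T y) (fib T ν x0) ^ 2 ∂ν) ≤ mean m T x0 F ν t := by
      rw [mean_eq]
      have hzp : t ^ (-(m : ℤ)) = (t ^ m)⁻¹ := by rw [zpow_neg, zpow_natCast]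
      rw [hzp]
      refine mul_le_mul_of_nonneg_left ?_ (by positivity)
      have iF : Integrable (fun y => prof (bsq T x0 y / t ^ 2) * F y) ν :=
        integrable_prof_mul hC continuous_prof (fun s hs => prof_of_one_le hs)
          hFc.continuous.aestronglyMeasurable ht (hFB t ⟨hat, le_rfl⟩)
      rw [← integral_const_mul]
      refine (setIntegral_mono_on ?_ iF.integrableOn (measurableSet_bset T x0 (t / 2)) ?_).trans
        (setIntegral_le_integral iF (Eventually.of_forall fun y => mul_nonneg (prof_nonneg _) (hF0 y)))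
      · -- integrability
        refine Integrable.const_mul ?_ _
        refine Measure.integrableOn_of_bounded (M := (2 * t) ^ 2) (measure_ne_top _ _)
          (((continuous_infDist_pt _).comp (co T).continuous).pow 2).aestronglyMeasurable ?_
        refine (ae_restrict_iff' (measurableSet_bset T x0 (t / 2))).2 ?_
        filter_upwards [hsupp] with y hy hys
        rw [mem_bset (by positivity)] at hys
        obtain ⟨c, hc, h1⟩ := hcone y hy (by linarith)
        rw [Real.norm_eq_abs, abs_of_nonneg (sq_nonneg _)]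
        have e1 : infDist (co T y) (fib T ν x0) ≤ 2 * t := by
          refine (infDist_le_dist_of_mem hc).trans ?_
          rw [dist_eq_norm]
          linarith
        have e0 : 0 ≤ infDist (co T y) (fib T ν x0) := infDist_nonneg
        gcongr
      · intro y hy
        have e1 : (9 / 16 : ℝ) ≤ prof (bsq T x0 y / t ^ 2) := by
          have h3 : bsq T x0 y / t ^ 2 ≤ 1 / 4 := by
            rw [div_le_iff₀ (by positivity)]
            have : bsq T x0 y < (t / 2) ^ 2 := hy
            nlinarith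
          have := le_prof h3 (by norm_num)
          norm_num at this; exact this
        have e2 : infDist (co T y) (fib T ν x0) ^ 2 / 2 ≤ F y := by
          refine le_soft hSn hτ fun c hc => ?_
          unfold qd hgt
          have e3 : infDist (co T y) (fib T ν x0) ≤ ‖co T y - c‖ := by
            rw [← dist_eq_norm]; exact infDist_le_dist_of_mem ((hmem c).1 hc)
          have e0 : 0 ≤ infDist (co T y) (fib T ν x0) := infDist_nonneg
          gcongr
        have e4 : 0 ≤ infDist (co T y) (fib T ν x0) ^ 2 / 2 := by positivity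
        calc 9 / 32 * infDist (co T y) (fib T ν x0) ^ 2
            = 9 / 16 * (infDist (co T y) (fib T ν x0) ^ 2 / 2) := by ring
          _ ≤ _ := mul_le_mul e1 e2 e4 (prof_nonneg _)
    have h6 : (t ^ m)⁻¹ * (9 / 32 * ∫ y in bset T x0 (t / 2),
        infDist (co T y) (fib T ν x0) ^ 2 ∂ν) ≤ 16 * J + 3 * A * a ^ 2 := by
      have : (1 + 5 * 3 : ℝ) * ∫ s in a..t, s ^ (1 - (m : ℤ)) * Dex T P ν x0 s ≤ 16 * J := by
        norm_num; linarith
      linarith
    rw [inv_mul_le_iff₀ (by positivity)] at h6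
    exact h6
  -- let `a → 0`
  have hlim : 9 / 32 * ∫ y in bset T x0 (t / 2), infDist (co T y) (fib T ν x0) ^ 2 ∂ν
      ≤ t ^ m * (16 * J) := by
    have htend : Tendsto (fun a : ℝ => t ^ m * (16 * J + 3 * A * a ^ 2)) (𝓝[>] 0)
        (𝓝 (t ^ m * (16 * J + 3 * A * 0 ^ 2))) := by
      refine Tendsto.mono_left ?_ nhdsWithin_le_nhds
      exact (by fun_prop : Continuous fun a : ℝ => t ^ m * (16 * J + 3 * A * a ^ 2)).tendsto 0
    have h1 := ge_of_tendsto htend (b := 9 / 32 * ∫ y in bset T x0 (t / 2),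
      infDist (co T y) (fib T ν x0) ^ 2 ∂ν) (by
        filter_upwards [self_mem_nhdsWithin, mem_nhdsWithin_of_mem_nhds (Iic_mem_nhds ht)] with a ha hat
        exact key a ha hat)
    simpa using h1
  have hJt : 0 ≤ t ^ m * J := by positivity
  nlinarith

end Vale.Agent.P214.QP
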