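import Vale.Agent.P214.QP.Mean

/-!
# P214, block QP: lifting support points towards a good base point

If the excess on all base balls about `x0` is small then every support point over `|x - x0| ≤ r`
has a support point over `|x - x0| < r/2` at height distance `< ε r`; iterating, it is
`2 ε |x - x0|` close to the fibre of the support over `x0`.
-/

open Set Filter Topology MeasureTheory Metric
open scoped RealInnerProductSpace

set_option linter.all false

namespace Vale.Agent.P214.QP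

open Vale.Agent.P214.FV Vale.Agent.P214.ODE

variable {E : Type*} [NormedAddCommGroup E] [InnerProductSpace ℝ E] [FiniteDimensional ℝ E]
  [MeasurableSpace E] [BorelSpace E]
variable {m : ℕ} {T : Submodule ℝ E} {G : Set E} {h : ℝ} {ν : Measure E} {P : E → E →L[ℝ] E}

lemma co_mem (T : Submodule ℝ E) (y : E) : co T y ∈ Tᗮ := by
  rw [co_eq]; exact Submodule.starProjection_apply_mem _ _

lemma bx_of_mem {T : Submodule ℝ E} {x0 : E} (hx0 : x0 ∈ T) (y : E) :
    bx T x0 y = T.starProjection y - x0 := by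
  rw [bx_eq, Submodule.starProjection_eq_self_iff.2 hx0]

lemma norm_bx_le (T : Submodule ℝ E) (z y : E) : ‖bx T z y‖ ≤ ‖y - z‖ := by
  unfold bx; exact norm_star_le T _

/-- `mean` as an integral -/
lemma mean_eq (z : E) (F : E → ℝ) (t : ℝ) :
    mean m T z F ν t = t ^ (-(m : ℤ)) * ∫ y, prof (bsq T z y / t ^ 2) * F y ∂ν := rfl

/-- integrability of the window means -/
lemma integrable_prof_win (hC : CylStat m T G h ν P) (z c : E) (ρ : ℝ) {t : ℝ} (ht : 0 < t) :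
    Integrable (fun y => prof (bsq T z y / t ^ 2) * win T c ρ y) ν := by
  refine integrable_prof_mul hC continuous_prof (fun s hs => prof_of_one_le hs)
    (contDiff_win T c ρ).continuous.aestronglyMeasurable (B := 1) ht (Eventually.of_forall
      fun y _ => ?_)
  rw [abs_of_nonneg (win_nonneg _ _ _ _)]; exact win_le_one _ _ _ _

/-- the window mean at the smallest scale -/
lemma mean_win_ge (hC : CylStat m T G h ν P) {y0 : E} {ρ c0 : ℝ} (hρ : 0 < ρ)
    (hlow : c0 * (ρ / 2) ^ m ≤ ν.real (closedBall y0 (ρ / 2))) :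
    243 / 1024 * c0 / 2 ^ m ≤ mean m T y0 (win T (co T y0) ρ) ν ρ := by
  haveI := hC.fin
  rw [mean_eq]
  have h1 : 243 / 1024 * ν.real (closedBall y0 (ρ / 2))
      ≤ ∫ y, prof (bsq T y0 y / ρ ^ 2) * win T (co T y0) ρ y ∂ν := by
    have h2 : 243 / 1024 * ν.real (closedBall y0 (ρ / 2))
        = ∫ y in closedBall y0 (ρ / 2), (243 / 1024 : ℝ) ∂ν := by
      rw [setIntegral_const, smul_eq_mul, mul_comm]
    rw [h2]
    refine (setIntegral_mono_on (integrable_const _).integrableOn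
      (integrable_prof_win hC y0 (co T y0) ρ hρ).integrableOn measurableSet_closedBall
      fun y hy => ?_).trans (setIntegral_le_integral (integrable_prof_win hC y0 (co T y0) ρ hρ)
        (Eventually.of_forall fun y => mul_nonneg (prof_nonneg _) (win_nonneg _ _ _ _)))
    have hd : ‖y - y0‖ ≤ ρ / 2 := by rw [← dist_eq_norm]; exact hy
    have e1 : (9 / 16 : ℝ) ≤ prof (bsq T y0 y / ρ ^ 2) := by
      have h3 : bsq T y0 y / ρ ^ 2 ≤ 1 / 4 := by
        rw [div_le_iff₀ (by positivity)]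
        have h4 : ‖bx T y0 y‖ ≤ ρ / 2 := (norm_bx_le T y0 y).trans hd
        have h5 : ‖bx T y0 y‖ ^ 2 ≤ (ρ / 2) ^ 2 := by gcongr
        unfold bsq; nlinarith
      have := le_prof h3 (by norm_num)
      norm_num at this; exact this
    have e2 : (27 / 64 : ℝ) ≤ win T (co T y0) ρ y := by
      refine win_ge hρ ?_
      unfold hgt
      rw [← map_sub]
      exact (norm_co_le T _).trans hd
    calc (243 / 1024 : ℝ) = 9 / 16 * (27 / 64) := by norm_num
      _ ≤ _ := mul_le_mul e1 e2 (by norm_num) (prof_nonneg _)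
  have hρm : ρ ^ (-(m : ℤ)) = (ρ ^ m)⁻¹ := by rw [zpow_neg, zpow_natCast]
  rw [hρm]
  calc 243 / 1024 * c0 / 2 ^ m = (ρ ^ m)⁻¹ * (243 / 1024 * (c0 * (ρ / 2) ^ m)) := by
        rw [div_pow]; field_simp
    _ ≤ (ρ ^ m)⁻¹ * (243 / 1024 * ν.real (closedBall y0 (ρ / 2))) := by gcongr
    _ ≤ _ := by gcongr

/-- moving the centre -/
lemma mean_center (hC : CylStat m T G h ν P) {x0 y0 : E} {r : ℝ} (hr : 0 < r)
    (hy0 : ‖T.starProjection y0 - T.starProjection x0‖ ≤ r) {F : E → ℝ} (hF : Continuous F)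
    (hF0 : ∀ y, 0 ≤ F y) (hF1 : ∀ y, F y ≤ 1) :
    9 / 16 / 4 ^ m * mean m T y0 F ν r ≤ mean m T x0 F ν (4 * r) := by
  haveI := hC.fin
  have hint : ∀ (z : E) (s : ℝ), 0 < s → Integrable (fun y => prof (bsq T z y / s ^ 2) * F y) ν := by
    intro z s hs
    refine integrable_prof_mul hC continuous_prof (fun s hs => prof_of_one_le hs)
      hF.aestronglyMeasurable (B := 1) hs (Eventually.of_forall fun y _ => ?_)
    rw [abs_of_nonneg (hF0 y)]; exact hF1 y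
  rw [mean_eq, mean_eq]
  have h1 : 9 / 16 * ∫ y, prof (bsq T y0 y / r ^ 2) * F y ∂ν
      ≤ ∫ y, prof (bsq T x0 y / (4 * r) ^ 2) * F y ∂ν := by
    rw [← integral_const_mul]
    refine integral_mono ((hint y0 r hr).const_mul _) (hint x0 (4 * r) (by positivity)) fun y => ?_
    simp only
    by_cases hy : y ∈ bset T y0 r
    · have h2 : y ∈ bset T x0 (2 * r) := bset_subset hr.le (by linarith) hy
      have h3 : (9 / 16 : ℝ) ≤ prof (bsq T x0 y / (4 * r) ^ 2) := by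
        have h3 : bsq T x0 y / (4 * r) ^ 2 ≤ 1 / 4 := by
          rw [div_le_iff₀ (by positivity)]
          have : bsq T x0 y < (2 * r) ^ 2 := h2
          nlinarith
        have := le_prof h3 (by norm_num)
        norm_num at this; exact this
      have h4 : prof (bsq T y0 y / r ^ 2) ≤ 1 := prof_le_one (div_nonneg (bsq_nonneg _ _ _) (by positivity))
      have h5 := hF0 y
      calc 9 / 16 * (prof (bsq T y0 y / r ^ 2) * F y) ≤ 9 / 16 * (1 * F y) := by gcongr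
        _ = 9 / 16 * F y := by ring
        _ ≤ _ := by gcongr
    · rw [prof_of_one_le (not_bset hr hy)]
      simp only [zero_mul, mul_zero]
      exact mul_nonneg (prof_nonneg _) (hF0 y)
  have hρm : ∀ s : ℝ, s ^ (-(m : ℤ)) = (s ^ m)⁻¹ := fun s => by rw [zpow_neg, zpow_natCast]
  rw [hρm, hρm]
  calc 9 / 16 / 4 ^ m * ((r ^ m)⁻¹ * ∫ y, prof (bsq T y0 y / r ^ 2) * F y ∂ν)
      = ((4 * r) ^ m)⁻¹ * (9 / 16 * ∫ y, prof (bsq T y0 y / r ^ 2) * F y ∂ν) := by
        rw [mul_pow]; field_simp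
    _ ≤ _ := by gcongr

/-- a positive window mean produces a support point -/
lemma exists_support_of_mean_pos (hC : CylStat m T G h ν P) {x0 c : E} {s ρ : ℝ} (hs : 0 < s)
    (hρ : 0 < ρ) (hpos : 0 < mean m T x0 (win T c ρ) ν s) :
    ∃ y ∈ ν.support, ‖bx T x0 y‖ < s ∧ ‖hgt T c y‖ < ρ := by
  by_contra hne
  push Not at hne
  have hz : ∫ y, prof (bsq T x0 y / s ^ 2) * win T c ρ y ∂ν = 0 := by
    refine integral_eq_zero_of_ae ?_
    filter_upwards [(Measure.support_mem_ae : ν.support ∈ ae ν)] with y hy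
    by_cases h1 : ‖bx T x0 y‖ < s
    · simp only [Pi.zero_apply, win_eq_zero hρ (hne y hy h1), mul_zero]
    · have : prof (bsq T x0 y / s ^ 2) = 0 := by
        refine prof_of_one_le (not_bset hs ?_)
        rw [mem_bset hs.le]; exact h1
      simp [this]
  rw [mean_eq, hz, mul_zero] at hpos
  exact lt_irrefl _ hpos

/-- the constants in the lifting lemma -/
lemma lift_const (m : ℕ) {c0 ε δ : ℝ} (hc0 : 0 < c0) (hε : 0 < ε) (hε1 : ε ≤ 1) (hδ0 : 0 ≤ δ)
    (hδ : δ ≤ c0 * ε ^ (m + 3) / (64 ^ m * 40000)) :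
    0 < 9 / 16 / 4 ^ m * (243 / 1024 * c0 / 2 ^ m - 35 * 2 ^ m / ε ^ (m + 3) * δ)
        - 3880 * 8 ^ m / ε ^ 2 * δ := by
  have d1 : 35 * 2 ^ m / ε ^ (m + 3) * δ ≤ 35 * 2 ^ m * c0 / (64 ^ m * 40000) := by
    calc 35 * 2 ^ m / ε ^ (m + 3) * δ
        ≤ 35 * 2 ^ m / ε ^ (m + 3) * (c0 * ε ^ (m + 3) / (64 ^ m * 40000)) := by gcongr
      _ = _ := by field_simp
  have d2 : 3880 * 8 ^ m / ε ^ 2 * δ ≤ 3880 * 8 ^ m * c0 / (64 ^ m * 40000) := by
    calc 3880 * 8 ^ m / ε ^ 2 * δ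
        ≤ 3880 * 8 ^ m / ε ^ 2 * (c0 * ε ^ (m + 3) / (64 ^ m * 40000)) := by gcongr
      _ = 3880 * 8 ^ m * c0 * ε ^ (m + 1) / (64 ^ m * 40000) := by
          rw [show m + 3 = (m + 1) + 2 by ring, pow_add ε (m + 1) 2]; field_simp
      _ ≤ 3880 * 8 ^ m * c0 * 1 / (64 ^ m * 40000) := by
          gcongr; exact pow_le_one₀ hε.le hε1
      _ = _ := by ring
  have h64 : (64:ℝ) ^ m = 8 ^ m * 8 ^ m := by rw [← mul_pow]; norm_num
  have h8 : (8:ℝ) ^ m = 4 ^ m * 2 ^ m := by rw [← mul_pow]; norm_num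
  have h2 : (1:ℝ) ≤ 2 ^ m := one_le_pow₀ (by norm_num)
  have h4' : (1:ℝ) ≤ 4 ^ m := one_le_pow₀ (by norm_num)
  have d3 : 35 * 2 ^ m * c0 / (64 ^ m * 40000) ≤ 35 / 40000 * (c0 / 2 ^ m) := by
    rw [h64, h8, div_le_iff₀ (by positivity)]
    have : 35 / 40000 * (c0 / 2 ^ m) * (4 ^ m * 2 ^ m * (4 ^ m * 2 ^ m) * 40000)
        = 35 * 2 ^ m * c0 * (4 ^ m * 4 ^ m) := by field_simp
    rw [this]
    have h5 : (1:ℝ) ≤ 4 ^ m * 4 ^ m := by nlinarith
    have h6 : (0:ℝ) ≤ 35 * 2 ^ m * c0 := by positivity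
    exact le_mul_of_one_le_right h6 h5
  have d4 : 3880 * 8 ^ m * c0 / (64 ^ m * 40000) = 3880 / 40000 * (c0 / 8 ^ m) := by
    rw [h64]; field_simp
  have d5 : 9 / 16 / 4 ^ m * (243 / 1024 * c0 / 2 ^ m - 35 / 40000 * (c0 / 2 ^ m))
      ≤ 9 / 16 / 4 ^ m * (243 / 1024 * c0 / 2 ^ m - 35 * 2 ^ m / ε ^ (m + 3) * δ) := by
    refine mul_le_mul_of_nonneg_left ?_ (by positivity)
    linarith
  have d6 : 9 / 16 / 4 ^ m * (243 / 1024 * c0 / 2 ^ m - 35 / 40000 * (c0 / 2 ^ m))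
      = 9 / 16 * (243 / 1024 - 35 / 40000) * (c0 / 8 ^ m) := by
    rw [h8]; field_simp
  have d7 : 0 < c0 / 8 ^ m := by positivity
  rw [d6] at d5
  rw [d4] at d2
  have d8 : 3880 / 40000 * (c0 / 8 ^ m) < 9 / 16 * (243 / 1024 - 35 / 40000) * (c0 / 8 ^ m) := by
    refine mul_lt_mul_of_pos_right ?_ d7
    norm_num
  linarith

/-- **Lift.** -/
lemma lift (hC : CylStat m T G h ν P) {c0 ε δ r R : ℝ} {x0 y0 : E} (hx0 : x0 ∈ T) (hc0 : 0 < c0)
    (hε : 0 < ε) (hε1 : ε ≤ 1) (hδ : δ ≤ c0 * ε ^ (m + 3) / (64 ^ m * 40000))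
    (hr : 0 < r) (hG : BallIn T G x0 R) (h4 : 4 * r < R)
    (hD2 : Dex T P ν x0 (2 * r) ≤ δ * (2 * r) ^ m) (hD4 : Dex T P ν x0 (4 * r) ≤ δ * (4 * r) ^ m)
    (hy0 : ‖bx T x0 y0‖ ≤ r)
    (hlow : c0 * (ε * r / 2) ^ m ≤ ν.real (closedBall y0 (ε * r / 2))) :
    ∃ y' ∈ ν.support, ‖bx T x0 y'‖ < r / 2 ∧ ‖co T y' - co T y0‖ < ε * r := by
  have hx0' : T.starProjection x0 = x0 := Submodule.starProjection_eq_self_iff.2 hx0
  have hy0' : ‖T.starProjection y0 - T.starProjection x0‖ ≤ r := by rw [← bx_eq]; exact hy0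
  set ρ := ε * r with hρdef
  have hρ : 0 < ρ := by positivity
  have hρr : ρ ≤ r := by rw [hρdef]; nlinarith
  set F := win T (co T y0) ρ with hFdef
  have hFc : ContDiff ℝ 2 F := contDiff_win _ _ _
  have hD0 : 0 ≤ δ * (4 * r) ^ m := (Dex_nonneg (z := x0) hC _).trans hD4
  have hδ0 : 0 ≤ δ := by
    by_contra hneg
    push Not at hneg
    have : 0 < (4 * r) ^ m := by positivity
    nlinarith
  have hF1 : ∀ᵐ y ∂ν, |F y| ≤ 1 := Eventually.of_forall fun y => by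
    rw [abs_of_nonneg (win_nonneg _ _ _ _)]; exact win_le_one _ _ _ _
  have hFh : ∀ᵐ y ∂ν, |hess F (P y) y| ≤ 30 / ρ ^ 2 * ODE.tilt T P y := by
    filter_upwards [hC.proj] with y hy
    obtain ⟨S, hS, hP⟩ := hy
    rw [otilt_eq, hP]
    exact abs_hess_win_le (co_mem T y0) hρ y
  -- base ball about `y0`
  have hGy : BallIn T G y0 (2 * r) := by
    intro x hx hx2
    refine hG x hx ?_
    calc ‖x - T.starProjection x0‖ = ‖(x - T.starProjection y0)
        + (T.starProjection y0 - T.starProjection x0)‖ := by congr 1; abel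
      _ ≤ 2 * r + r := (norm_add_le _ _).trans (add_le_add hx2 hy0')
      _ ≤ R := by linarith
  have hm1 := mean_win_ge hC hρ hlow
  have hDy : Dex T P ν y0 r ≤ δ * (2 * r) ^ m :=
    (Dex_mono_set hC (bset_subset hr.le (by linarith))).trans hD2
  have hs1 := abs_mean_sub_le (z := y0) hC hFc (a := ρ) (b := r) (R := 2 * r) (Λ := 30 / ρ ^ 2) (B := 1)
    hρ hρr (by linarith) hGy (by positivity) (by norm_num)
    (by filter_upwards [hF1] with y hy _ using hy) (by filter_upwards [hFh] with y hy _ using hy)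
  have hs2 := abs_mean_sub_le (z := x0) hC hFc (a := r / 2) (b := 4 * r) (R := R) (Λ := 30 / ρ ^ 2) (B := 1)
    (by positivity) (by linarith) h4 hG (by positivity) (by norm_num)
    (by filter_upwards [hF1] with y hy _ using hy) (by filter_upwards [hFh] with y hy _ using hy)
  have hmc := mean_center (x0 := x0) (y0 := y0) (F := F) hC hr hy0' hFc.continuous
    (win_nonneg _ _ _) (win_le_one _ _ _)
  -- numerical bounds
  have hzp : ∀ s : ℝ, s ^ (-(m : ℤ)) = (s ^ m)⁻¹ := fun s => by rw [zpow_neg, zpow_natCast]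
  have hε2 : ε ^ 2 ≤ 1 := pow_le_one₀ hε.le hε1
  have hb1 : (r - ρ) * (ρ⁻¹ * ρ ^ (-(m : ℤ)) * (30 / ρ ^ 2 * r ^ 2 + 5 * 1) * Dex T P ν y0 r)
      ≤ 35 * 2 ^ m / ε ^ (m + 3) * δ := by
    have e1 : 30 / ρ ^ 2 * r ^ 2 + 5 * 1 ≤ 35 / ε ^ 2 := by
      rw [hρdef, mul_pow]
      have : 30 / (ε ^ 2 * r ^ 2) * r ^ 2 = 30 / ε ^ 2 := by field_simp
      rw [this, div_add' _ _ _ (by positivity)]
      gcongr
      linarith
    have e0 : 0 ≤ Dex T P ν y0 r := Dex_nonneg (z := y0) hC _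
    have e00 : 0 ≤ r - ρ := by linarith
    calc (r - ρ) * (ρ⁻¹ * ρ ^ (-(m : ℤ)) * (30 / ρ ^ 2 * r ^ 2 + 5 * 1) * Dex T P ν y0 r)
        ≤ r * (ρ⁻¹ * ρ ^ (-(m : ℤ)) * (35 / ε ^ 2) * (δ * (2 * r) ^ m)) := by
          gcongr
          linarith
      _ = 35 * 2 ^ m / ε ^ (m + 3) * δ := by
          rw [hzp, hρdef, mul_pow, mul_pow, pow_add]
          field_simp
  have hb2 : (4 * r - r / 2) * ((r / 2)⁻¹ * (r / 2) ^ (-(m : ℤ))
      * (30 / ρ ^ 2 * (4 * r) ^ 2 + 5 * 1) * Dex T P ν x0 (4 * r))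
      ≤ 3880 * 8 ^ m / ε ^ 2 * δ := by
    have e1 : 30 / ρ ^ 2 * (4 * r) ^ 2 + 5 * 1 ≤ 485 / ε ^ 2 := by
      rw [hρdef, mul_pow]
      have : 30 / (ε ^ 2 * r ^ 2) * (4 * r) ^ 2 = 480 / ε ^ 2 := by field_simp; norm_num
      rw [this, div_add' _ _ _ (by positivity)]
      gcongr
      linarith
    have e0 : 0 ≤ Dex T P ν x0 (4 * r) := Dex_nonneg (z := x0) hC _
    calc (4 * r - r / 2) * ((r / 2)⁻¹ * (r / 2) ^ (-(m : ℤ))
      * (30 / ρ ^ 2 * (4 * r) ^ 2 + 5 * 1) * Dex T P ν x0 (4 * r))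
        ≤ (4 * r) * ((r / 2)⁻¹ * (r / 2) ^ (-(m : ℤ)) * (485 / ε ^ 2) * (δ * (4 * r) ^ m)) := by
          gcongr
          linarith
      _ = 3880 * 8 ^ m / ε ^ 2 * δ := by
          rw [hzp, mul_pow, div_pow, show (8:ℝ) ^ m = 2 ^ m * 4 ^ m by rw [← mul_pow]; norm_num]
          field_simp
          ring
  have hpos : 0 < mean m T x0 F ν (r / 2) := by
    have a1 := (abs_le.1 (hs1.trans hb1)).1
    have a2 := (abs_le.1 (hs2.trans hb2)).2
    have c1 : 9 / 16 / 4 ^ m * (243 / 1024 * c0 / 2 ^ m - 35 * 2 ^ m / ε ^ (m + 3) * δ)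
        ≤ mean m T x0 F ν (4 * r) := by
      refine le_trans ?_ hmc
      gcongr
      linarith
    have c2 : 9 / 16 / 4 ^ m * (243 / 1024 * c0 / 2 ^ m - 35 * 2 ^ m / ε ^ (m + 3) * δ)
        - 3880 * 8 ^ m / ε ^ 2 * δ ≤ mean m T x0 F ν (r / 2) := by linarith
    exact lt_of_lt_of_le (lift_const m hc0 hε hε1 hδ0 hδ) c2
  obtain ⟨y', h1, h2, h3⟩ := exists_support_of_mean_pos hC (by positivity) hρ hpos
  exact ⟨y', h1, h2, h3⟩

end Vale.Agent.P214.QP
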