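import Mathlib
import Vale.Agent.P214.BES.Basic

/-!
# P214, block MAX: a good centre

For two finite measures on an `m`-dimensional space there is a point `x₀ ∈ B_t(p)` at which both
maximal functions and the Riesz-type potential are controlled by the mass in `B_{9t}(p)`.
-/

open MeasureTheory Set Metric Module
open scoped ENNReal

set_option linter.all false

namespace Vale.Agent.P214.QP

variable {F : Type*} [NormedAddCommGroup F] [InnerProductSpace ℝ F] [FiniteDimensional ℝ F]
  [MeasurableSpace F] [BorelSpace F]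

/-- the bad set for the maximal function is small -/
theorem volume_bad_max (μ : Measure F) [μ.IsAddHaarMeasure] (σ : Measure F) [IsFiniteMeasure σ]
    (p : F) {t : ℝ} (ht : 0 < t) {c : ℝ} (hc : 0 < c) :
    ENNReal.ofReal c * μ {x | x ∈ ball p t ∧ ∃ s ∈ Ioc (0:ℝ) (8 * t),
        ENNReal.ofReal (c * s ^ finrank ℝ F) ≤ σ (ball x s)}
      ≤ ENNReal.ofReal (5 ^ finrank ℝ F) * μ (ball 0 1) * σ (ball p (9 * t)) := by
  classical
  set A : Set F := {x | x ∈ ball p t ∧ ∃ s ∈ Ioc (0:ℝ) (8 * t),
        ENNReal.ofReal (c * s ^ finrank ℝ F) ≤ σ (ball x s)} with hA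
  have hex : ∀ x ∈ A, ∃ s, 0 < s ∧ s ≤ 8 * t ∧
      ENNReal.ofReal (c * s ^ finrank ℝ F) ≤ σ (ball x s) := by
    rintro x ⟨-, s, hs, h⟩
    exact ⟨s, hs.1, hs.2, h⟩
  choose! r hr using hex
  have hv := BES.vitali_type (ENNReal.ofReal c • μ)
    ((ENNReal.ofReal (5 ^ finrank ℝ F) * μ (ball 0 1)) • σ) A (ball p (9 * t)) r (8 * t)
    (fun x hx => (hr x hx).1) (fun x hx => (hr x hx).2.1) (fun x hx => ?_) (fun x hx => ?_)
  · simpa [Measure.smul_apply, smul_eq_mul] using hv
  · have h1 := (hr x hx).1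
    have h5 : 0 < 5 * r x := by positivity
    rw [Measure.smul_apply, Measure.smul_apply, smul_eq_mul, smul_eq_mul,
      μ.addHaar_closedBall x h5.le]
    calc ENNReal.ofReal c * (ENNReal.ofReal ((5 * r x) ^ finrank ℝ F) * μ (ball 0 1))
        = ENNReal.ofReal (5 ^ finrank ℝ F) * μ (ball 0 1)
            * ENNReal.ofReal (c * r x ^ finrank ℝ F) := by
          rw [mul_pow, ENNReal.ofReal_mul (by positivity : (0:ℝ) ≤ 5 ^ finrank ℝ F),
            ENNReal.ofReal_mul hc.le]
          ring
      _ ≤ ENNReal.ofReal (5 ^ finrank ℝ F) * μ (ball 0 1) * σ (ball x (r x)) := by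
          gcongr
          exact (hr x hx).2.2
      _ ≤ _ := by
          gcongr
          exact ball_subset_closedBall
  · intro y hy
    have hx1 : dist x p < t := hx.1
    have h2 := (hr x hx).2.1
    rw [mem_closedBall] at hy
    rw [mem_ball]
    calc dist y p ≤ dist y x + dist x p := dist_triangle _ _ _
      _ < 9 * t := by linarith

/-- the potential -/
noncomputable def pot (m : ℕ) (σ : Measure F) (t : ℝ) (x : F) : ℝ≥0∞ :=
  ∫⁻ s in Ioc (0:ℝ) (8 * t), ENNReal.ofReal (s ^ (1 - (m : ℤ))) * σ (ball x s)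

lemma measurable_ball_measure (σ : Measure F) [IsFiniteMeasure σ] :
    Measurable fun z : F × ℝ => σ (ball z.1 z.2) := by
  have hS : MeasurableSet {w : (F × ℝ) × F | dist w.2 w.1.1 < w.1.2} := by
    apply IsOpen.measurableSet
    apply isOpen_lt
    · fun_prop
    · fun_prop
  exact measurable_measure_prodMk_left (ν := σ) hS

lemma measurable_integrand (m : ℕ) (σ : Measure F) [IsFiniteMeasure σ] :
    Measurable fun z : F × ℝ => ENNReal.ofReal (z.2 ^ (1 - (m : ℤ))) * σ (ball z.1 z.2) := by
  refine Measurable.mul ?_ (measurable_ball_measure σ)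
  apply Measurable.ennreal_ofReal
  exact measurable_snd.pow_const _

/-- the average of the potential -/
theorem lintegral_pot_le (μ : Measure F) [μ.IsAddHaarMeasure] (m : ℕ) (hm : finrank ℝ F = m)
    (σ : Measure F) [IsFiniteMeasure σ] (p : F) {t : ℝ} (ht : 0 < t) :
    ∫⁻ x in ball p t, pot m σ t x ∂μ
      ≤ ENNReal.ofReal (64 * t ^ 2) * μ (ball 0 1) * σ (ball p (9 * t)) := by
  -- inner estimate
  have hin : ∀ s ∈ Ioc (0:ℝ) (8 * t), ∫⁻ x in ball p t, σ (ball x s) ∂μ
      ≤ ENNReal.ofReal (s ^ m) * μ (ball 0 1) * σ (ball p (9 * t)) := by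
    intro s hs
    have hS : MeasurableSet {w : F × F | dist w.2 w.1 < s} := by
      apply IsOpen.measurableSet
      apply isOpen_lt
      · fun_prop
      · fun_prop
    have e1 : ∀ x : F, σ (ball x s)
        = ∫⁻ y, {w : F × F | dist w.2 w.1 < s}.indicator (fun _ => (1:ℝ≥0∞)) (x, y) ∂σ := by
      intro x
      rw [← lintegral_indicator_one measurableSet_ball]
      refine lintegral_congr fun y => ?_
      by_cases h : y ∈ ball x s
      · rw [indicator_of_mem h, indicator_of_mem (by exact h)]; rfl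
      · rw [indicator_of_notMem h, indicator_of_notMem (by exact h)]
    calc ∫⁻ x in ball p t, σ (ball x s) ∂μ
        = ∫⁻ x in ball p t, ∫⁻ y,
            {w : F × F | dist w.2 w.1 < s}.indicator (fun _ => (1:ℝ≥0∞)) (x, y) ∂σ ∂μ := by
          exact lintegral_congr fun x => e1 x
      _ = ∫⁻ y, ∫⁻ x in ball p t,
            {w : F × F | dist w.2 w.1 < s}.indicator (fun _ => (1:ℝ≥0∞)) (x, y) ∂μ ∂σ := by
          refine lintegral_lintegral_swap ?_
          exact (measurable_const.indicator hS).aemeasurable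
      _ ≤ ∫⁻ y, (ball p (9 * t)).indicator
            (fun _ => ENNReal.ofReal (s ^ m) * μ (ball 0 1)) y ∂σ := by
          refine lintegral_mono fun y => ?_
          by_cases hy : y ∈ ball p (9 * t)
          · rw [indicator_of_mem hy]
            calc ∫⁻ x in ball p t,
                  {w : F × F | dist w.2 w.1 < s}.indicator (fun _ => (1:ℝ≥0∞)) (x, y) ∂μ
                ≤ ∫⁻ x, (ball y s).indicator (fun _ => (1:ℝ≥0∞)) x ∂μ := by
                  refine (setLIntegral_le_lintegral _ _).trans ?_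
                  refine lintegral_mono fun x => ?_
                  by_cases h : dist y x < s
                  · have h' : x ∈ ball y s := by rw [mem_ball, dist_comm]; exact h
                    rw [indicator_of_mem h']
                    exact indicator_le_self' (fun _ _ => zero_le') _
                  · have h' : ((x, y) : F × F) ∉ {w : F × F | dist w.2 w.1 < s} := h
                    rw [indicator_of_notMem h']
                    exact zero_le'
              _ = μ (ball y s) := by
                  have := lintegral_indicator_one (μ := μ) (measurableSet_ball (x := y) (ε := s))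
                  exact this
              _ = ENNReal.ofReal (s ^ m) * μ (ball 0 1) := by
                  rw [μ.addHaar_ball_of_pos y hs.1, hm]
          · rw [indicator_of_notMem hy]
            refine le_of_eq ?_
            rw [← lintegral_zero (μ := μ.restrict (ball p t))]
            refine setLIntegral_congr_fun measurableSet_ball fun x hx => ?_
            apply indicator_of_notMem
            intro h
            apply hy
            have h1 : dist y x < s := h
            have h2 : dist x p < t := hx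
            rw [mem_ball]
            have := hs.2
            calc dist y p ≤ dist y x + dist x p := dist_triangle _ _ _
              _ < 9 * t := by linarith
      _ = ENNReal.ofReal (s ^ m) * μ (ball 0 1) * σ (ball p (9 * t)) := by
          rw [lintegral_indicator measurableSet_ball, lintegral_const, Measure.restrict_apply_univ]
  have hmeas := measurable_integrand (F := F) m σ
  calc ∫⁻ x in ball p t, pot m σ t x ∂μ
      = ∫⁻ x in ball p t, (∫⁻ s in Ioc (0:ℝ) (8 * t),
          ENNReal.ofReal (s ^ (1 - (m : ℤ))) * σ (ball x s)) ∂μ := rfl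
    _ = ∫⁻ s in Ioc (0:ℝ) (8 * t), (∫⁻ x in ball p t,
          ENNReal.ofReal (s ^ (1 - (m : ℤ))) * σ (ball x s) ∂μ) := by
        exact lintegral_lintegral_swap
          (f := fun (x : F) (s : ℝ) => ENNReal.ofReal (s ^ (1 - (m : ℤ))) * σ (ball x s))
          hmeas.aemeasurable
    _ = ∫⁻ s in Ioc (0:ℝ) (8 * t), ENNReal.ofReal (s ^ (1 - (m : ℤ))) *
          ∫⁻ x in ball p t, σ (ball x s) ∂μ := by
        refine lintegral_congr fun s => ?_
        refine lintegral_const_mul' _ _ ENNReal.ofReal_ne_top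
    _ ≤ ∫⁻ s in Ioc (0:ℝ) (8 * t), ENNReal.ofReal (8 * t) *
          (μ (ball 0 1) * σ (ball p (9 * t))) := by
        refine setLIntegral_mono measurable_const fun s hs => ?_
        calc ENNReal.ofReal (s ^ (1 - (m : ℤ))) * ∫⁻ x in ball p t, σ (ball x s) ∂μ
            ≤ ENNReal.ofReal (s ^ (1 - (m : ℤ))) *
                (ENNReal.ofReal (s ^ m) * μ (ball 0 1) * σ (ball p (9 * t))) := by
              gcongr
              exact hin s hs
          _ = ENNReal.ofReal s * (μ (ball 0 1) * σ (ball p (9 * t))) := by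
              have h1 : s ^ (1 - (m : ℤ)) * s ^ m = s := by
                rw [← zpow_natCast s m, ← zpow_add₀ hs.1.ne']
                simp
              rw [mul_assoc (ENNReal.ofReal (s ^ m)), ← mul_assoc,
                ← ENNReal.ofReal_mul (zpow_nonneg hs.1.le _), h1]
          _ ≤ _ := by
              gcongr
              exact hs.2
    _ = ENNReal.ofReal (64 * t ^ 2) * μ (ball 0 1) * σ (ball p (9 * t)) := by
        rw [lintegral_const, Measure.restrict_apply_univ, Real.volume_Ioc, sub_zero,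
          show (64 * t ^ 2 : ℝ) = (8 * t) * (8 * t) by ring,
          ENNReal.ofReal_mul (show (0:ℝ) ≤ 8 * t by positivity)]
        generalize ENNReal.ofReal (8 * t) = z
        ring

/-- the bad set for the potential is small -/
theorem volume_bad_pot (μ : Measure F) [μ.IsAddHaarMeasure] (m : ℕ) (hm : finrank ℝ F = m)
    (σ : Measure F) [IsFiniteMeasure σ] (p : F) {t : ℝ} (ht : 0 < t) (c : ℝ≥0∞) :
    c * μ {x | x ∈ ball p t ∧ c ≤ pot m σ t x}
      ≤ ENNReal.ofReal (64 * t ^ 2) * μ (ball 0 1) * σ (ball p (9 * t)) := by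
  have hmeas : Measurable fun x : F => pot m σ t x := by
    unfold pot
    exact (measurable_integrand (F := F) m σ).lintegral_prod_right'
  calc c * μ {x | x ∈ ball p t ∧ c ≤ pot m σ t x}
      = c * (μ.restrict (ball p t)) {x | c ≤ pot m σ t x} := by
        rw [Measure.restrict_apply' measurableSet_ball]
        congr 2
        ext x
        exact and_comm
    _ ≤ ∫⁻ x in ball p t, pot m σ t x ∂μ := mul_meas_ge_le_lintegral hmeas c
    _ ≤ _ := lintegral_pot_le μ m hm σ p ht

/-- the constant in `good_center` -/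
def Cgc (m : ℕ) : ℝ := 4 * 5 ^ m + 256

lemma Cgc_pos (m : ℕ) : 0 < Cgc m := by unfold Cgc; positivity

/-- **Good centre**, with integrability down to `0`. -/
theorem good_center_int {F : Type*} [NormedAddCommGroup F] [InnerProductSpace ℝ F]
    [FiniteDimensional ℝ F] [MeasurableSpace F] [BorelSpace F] {m : ℕ} (hm : finrank ℝ F = m)
    (σ₁ σ₂ : Measure F) [IsFiniteMeasure σ₁] [IsFiniteMeasure σ₂] (p : F) {t : ℝ} (ht : 0 < t) :
    ∃ x₀ ∈ ball p t,
        (∀ s ∈ Ioc (0:ℝ) (8 * t),
          σ₁.real (ball x₀ s) ≤ Cgc m / t ^ m * σ₁.real (ball p (9 * t)) * s ^ m) ∧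
        (∀ s ∈ Ioc (0:ℝ) (8 * t),
          σ₂.real (ball x₀ s) ≤ Cgc m / t ^ m * σ₂.real (ball p (9 * t)) * s ^ m) ∧
        IntervalIntegrable (fun s : ℝ => s ^ (1 - (m : ℤ)) * σ₂.real (ball x₀ s)) volume 0
          (8 * t) ∧
        ∫ s in (0:ℝ)..(8 * t), s ^ (1 - (m : ℤ)) * σ₂.real (ball x₀ s)
          ≤ Cgc m * t ^ (2 - (m : ℤ)) * σ₂.real (ball p (9 * t)) := by
  classical
  set C : ℝ := Cgc m with hC'
  have hC : C = 4 * 5 ^ m + 256 := by rw [hC']; rfl
  have hCpos : 0 < C := by rw [hC]; positivity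
  let μ : Measure F := Measure.addHaar
  set v : ℝ≥0∞ := μ (ball 0 1) with hv
  have hv0 : v ≠ 0 := (measure_ball_pos _ _ zero_lt_one).ne'
  have hvt : v ≠ ⊤ := measure_ball_lt_top.ne
  have hball : μ (ball p t) = ENNReal.ofReal (t ^ m) * v := by
    rw [μ.addHaar_ball_of_pos p ht, hm]
  -- bad sets
  let M : Measure F → Set F := fun σ => {x | x ∈ ball p t ∧ σ.real (ball p (9 * t)) ≠ 0 ∧
    ∃ s ∈ Ioc (0:ℝ) (8 * t),
      ENNReal.ofReal (C / t ^ m * σ.real (ball p (9 * t)) * s ^ finrank ℝ F) ≤ σ (ball x s)}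
  let N : Set F := {x | x ∈ ball p t ∧ σ₂.real (ball p (9 * t)) ≠ 0 ∧
    ENNReal.ofReal (C * t ^ (2 - (m : ℤ)) * σ₂.real (ball p (9 * t))) ≤ pot m σ₂ t x}
  have hM : ∀ σ : Measure F, [IsFiniteMeasure σ] → 4 * μ (M σ) ≤ μ (ball p t) := by
    intro σ _
    by_cases h0 : σ.real (ball p (9 * t)) = 0
    · have : M σ = ∅ := by
        ext x
        simp only [M, mem_setOf_eq, mem_empty_iff_false, iff_false]
        rintro ⟨-, h, -⟩
        exact h h0
      rw [this]; simp
    · have hpos : 0 < σ.real (ball p (9 * t)) := lt_of_le_of_ne measureReal_nonneg (Ne.symm h0)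
      have hc : 0 < C / t ^ m * σ.real (ball p (9 * t)) := by positivity
      have h1 := volume_bad_max μ σ p ht hc
      have h2 : M σ ⊆ {x | x ∈ ball p t ∧ ∃ s ∈ Ioc (0:ℝ) (8 * t),
        ENNReal.ofReal (C / t ^ m * σ.real (ball p (9 * t)) * s ^ finrank ℝ F)
          ≤ σ (ball x s)} := fun x hx => ⟨hx.1, hx.2.2⟩
      have h3 : ENNReal.ofReal (C / t ^ m * σ.real (ball p (9 * t))) * μ (M σ)
          ≤ ENNReal.ofReal (5 ^ m) * v * σ (ball p (9 * t)) := by
        refine (mul_le_mul_right (measure_mono h2) _).trans ?_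
        rw [hm] at h1
        rw [hm]
        exact h1
      have h4 : σ (ball p (9 * t)) = ENNReal.ofReal (σ.real (ball p (9 * t))) := by
        rw [measureReal_def, ENNReal.ofReal_toReal (measure_ne_top _ _)]
      rw [h4] at h3
      have h5 : ENNReal.ofReal (C / t ^ m * σ.real (ball p (9 * t)))
          = ENNReal.ofReal (σ.real (ball p (9 * t))) * ENNReal.ofReal (C / t ^ m) := by
        rw [mul_comm, ENNReal.ofReal_mul hpos.le]
      have hfin : ENNReal.ofReal (σ.real (ball p (9 * t))) ≠ ⊤ := ENNReal.ofReal_ne_top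
      have hne : ENNReal.ofReal (σ.real (ball p (9 * t))) ≠ 0 := by
        rw [Ne, ENNReal.ofReal_eq_zero]; linarith
      have h6 : ENNReal.ofReal (C / t ^ m) * μ (M σ) ≤ ENNReal.ofReal (5 ^ m) * v := by
        rw [h5, mul_assoc, mul_comm (ENNReal.ofReal (5 ^ m) * v)] at h3
        exact (ENNReal.mul_le_mul_iff_right hne hfin).1 h3
      have h7 : ENNReal.ofReal (4 * 5 ^ m / t ^ m) * μ (M σ) ≤ ENNReal.ofReal (5 ^ m) * v := by
        refine le_trans ?_ h6
        gcongr
        rw [hC]; linarith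
      -- multiply by t^m / 5^m
      have h8 : ENNReal.ofReal (t ^ m / 5 ^ m) * (ENNReal.ofReal (4 * 5 ^ m / t ^ m) * μ (M σ))
          ≤ ENNReal.ofReal (t ^ m / 5 ^ m) * (ENNReal.ofReal (5 ^ m) * v) := by gcongr
      rw [← mul_assoc, ← mul_assoc, ← ENNReal.ofReal_mul (by positivity),
        ← ENNReal.ofReal_mul (by positivity),
        show t ^ m / 5 ^ m * (4 * 5 ^ m / t ^ m) = 4 by field_simp,
        show t ^ m / 5 ^ m * 5 ^ m = t ^ m by field_simp] at h8
      rw [hball]
      simpa using h8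
  have hN : 4 * μ N ≤ μ (ball p t) := by
    by_cases h0 : σ₂.real (ball p (9 * t)) = 0
    · have : N = ∅ := by
        ext x
        simp only [N, mem_setOf_eq, mem_empty_iff_false, iff_false]
        rintro ⟨-, h, -⟩
        exact h h0
      rw [this]; simp
    · have hpos : 0 < σ₂.real (ball p (9 * t)) := lt_of_le_of_ne measureReal_nonneg (Ne.symm h0)
      have h1 := volume_bad_pot μ m hm σ₂ p ht
        (ENNReal.ofReal (C * t ^ (2 - (m : ℤ)) * σ₂.real (ball p (9 * t))))
      have h2 : N ⊆ {x | x ∈ ball p t ∧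
          ENNReal.ofReal (C * t ^ (2 - (m : ℤ)) * σ₂.real (ball p (9 * t))) ≤ pot m σ₂ t x} :=
        fun x hx => ⟨hx.1, hx.2.2⟩
      have h3 := (mul_le_mul_right (measure_mono (μ := μ) h2)
        (ENNReal.ofReal (C * t ^ (2 - (m : ℤ)) * σ₂.real (ball p (9 * t))))).trans h1
      have h4 : σ₂ (ball p (9 * t)) = ENNReal.ofReal (σ₂.real (ball p (9 * t))) := by
        rw [measureReal_def, ENNReal.ofReal_toReal (measure_ne_top _ _)]
      rw [h4] at h3
      have h5 : ENNReal.ofReal (C * t ^ (2 - (m : ℤ)) * σ₂.real (ball p (9 * t)))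
          = ENNReal.ofReal (σ₂.real (ball p (9 * t))) *
            ENNReal.ofReal (C * t ^ (2 - (m : ℤ))) := by
        rw [mul_comm, ENNReal.ofReal_mul hpos.le]
      have hfin : ENNReal.ofReal (σ₂.real (ball p (9 * t))) ≠ ⊤ := ENNReal.ofReal_ne_top
      have hne : ENNReal.ofReal (σ₂.real (ball p (9 * t))) ≠ 0 := by
        rw [Ne, ENNReal.ofReal_eq_zero]; linarith
      have h6 : ENNReal.ofReal (C * t ^ (2 - (m : ℤ))) * μ N
          ≤ ENNReal.ofReal (64 * t ^ 2) * v := by
        rw [h5, mul_assoc, mul_comm (ENNReal.ofReal (64 * t ^ 2) * v)] at h3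
        exact (ENNReal.mul_le_mul_iff_right hne hfin).1 h3
      have htz : t ^ (2 - (m : ℤ)) = t ^ 2 / t ^ m := by
        rw [zpow_sub₀ ht.ne', zpow_natCast]
        norm_cast
      have h7 : ENNReal.ofReal (256 * (t ^ 2 / t ^ m)) * μ N ≤ ENNReal.ofReal (64 * t ^ 2) * v := by
        refine le_trans ?_ h6
        rw [htz]
        gcongr
        rw [hC]; nlinarith [show (0:ℝ) < 5 ^ m by positivity]
      have h8 : ENNReal.ofReal (t ^ m / (64 * t ^ 2)) *
          (ENNReal.ofReal (256 * (t ^ 2 / t ^ m)) * μ N)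
          ≤ ENNReal.ofReal (t ^ m / (64 * t ^ 2)) * (ENNReal.ofReal (64 * t ^ 2) * v) := by
        gcongr
      rw [← mul_assoc, ← mul_assoc, ← ENNReal.ofReal_mul (by positivity),
        ← ENNReal.ofReal_mul (by positivity),
        show t ^ m / (64 * t ^ 2) * (256 * (t ^ 2 / t ^ m)) = 4 by field_simp; norm_num,
        show t ^ m / (64 * t ^ 2) * (64 * t ^ 2) = t ^ m by field_simp] at h8
      rw [hball]
      simpa using h8
  -- the union of the bad sets is not everything
  have hb0 : μ (ball p t) ≠ 0 := (measure_ball_pos _ _ ht).ne'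
  have hbt : μ (ball p t) ≠ ⊤ := measure_ball_lt_top.ne
  have hex : ∃ x ∈ ball p t, x ∉ M σ₁ ∧ x ∉ M σ₂ ∧ x ∉ N := by
    by_contra hcon
    push Not at hcon
    have hsub : ball p t ⊆ M σ₁ ∪ M σ₂ ∪ N := by
      intro x hx
      by_cases h1 : x ∈ M σ₁
      · exact Or.inl (Or.inl h1)
      · by_cases h2 : x ∈ M σ₂
        · exact Or.inl (Or.inr h2)
        · exact Or.inr (hcon x hx h1 h2)
    have h1 : μ (ball p t) ≤ μ (M σ₁) + μ (M σ₂) + μ N :=
      (measure_mono hsub).trans ((measure_union_le _ _).trans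
        (add_le_add_left (measure_union_le _ _) _))
    have h2 : 4 * μ (ball p t) ≤ 3 * μ (ball p t) := by
      calc 4 * μ (ball p t) ≤ 4 * (μ (M σ₁) + μ (M σ₂) + μ N) := by gcongr
        _ = 4 * μ (M σ₁) + 4 * μ (M σ₂) + 4 * μ N := by ring
        _ ≤ μ (ball p t) + μ (ball p t) + μ (ball p t) := by
            gcongr
            · exact hM σ₁
            · exact hM σ₂
        _ = 3 * μ (ball p t) := by ring
    rw [mul_comm, mul_comm 3, ENNReal.mul_le_mul_iff_right hb0 hbt] at h2
    norm_num at h2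
  obtain ⟨x₀, hx₀, h1, h2, h3⟩ := hex
  -- conversion of the maximal bound
  have hmax : ∀ σ : Measure F, [IsFiniteMeasure σ] → x₀ ∉ M σ → ∀ s ∈ Ioc (0:ℝ) (8 * t),
      σ.real (ball x₀ s) ≤ C / t ^ m * σ.real (ball p (9 * t)) * s ^ m := by
    intro σ _ hx s hs
    by_cases h0 : σ.real (ball p (9 * t)) = 0
    · have hsub : ball x₀ s ⊆ ball p (9 * t) := by
        intro y hy
        have h4 : dist y x₀ < s := hy
        have h5 : dist x₀ p < t := hx₀
        have h6 := hs.2
        rw [mem_ball]
        calc dist y p ≤ dist y x₀ + dist x₀ p := dist_triangle _ _ _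
          _ < 9 * t := by linarith
      have h7 : σ.real (ball x₀ s) ≤ σ.real (ball p (9 * t)) := measureReal_mono hsub
      have h8 : (0:ℝ) ≤ C / t ^ m * σ.real (ball p (9 * t)) * s ^ m := by
        rw [h0]; simp
      linarith
    · by_contra hcon
      apply hx
      refine ⟨hx₀, h0, s, hs, ?_⟩
      rw [hm]
      push Not at hcon
      calc ENNReal.ofReal (C / t ^ m * σ.real (ball p (9 * t)) * s ^ m)
          ≤ ENNReal.ofReal (σ.real (ball x₀ s)) := ENNReal.ofReal_le_ofReal hcon.le
        _ = σ (ball x₀ s) := by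
            rw [measureReal_def, ENNReal.ofReal_toReal (measure_ne_top _ _)]
  have hpot : pot m σ₂ t x₀ ≤
      ENNReal.ofReal (C * t ^ (2 - (m : ℤ)) * σ₂.real (ball p (9 * t))) := by
    by_cases h0 : σ₂.real (ball p (9 * t)) = 0
    · have hzero : σ₂ (ball p (9 * t)) = 0 := by
        rw [measureReal_def, ENNReal.toReal_eq_zero_iff] at h0
        exact h0.resolve_right (measure_ne_top _ _)
      have : pot m σ₂ t x₀ = 0 := by
        unfold pot
        rw [← lintegral_zero (μ := (volume : Measure ℝ).restrict (Ioc 0 (8 * t)))]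
        refine setLIntegral_congr_fun measurableSet_Ioc fun s hs => ?_
        have hsub : ball x₀ s ⊆ ball p (9 * t) := by
          intro y hy
          have h4 : dist y x₀ < s := hy
          have h5 : dist x₀ p < t := hx₀
          have h6 := hs.2
          rw [mem_ball]
          calc dist y p ≤ dist y x₀ + dist x₀ p := dist_triangle _ _ _
            _ < 9 * t := by linarith
        have : σ₂ (ball x₀ s) = 0 := measure_mono_null hsub hzero
        simp only [this, mul_zero]
      rw [this]; exact zero_le'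
    · by_contra hcon
      exact h3 ⟨hx₀, h0, (not_le.1 hcon).le⟩
  have hmeas : Measurable fun s : ℝ => s ^ (1 - (m : ℤ)) * σ₂.real (ball x₀ s) := by
    refine Measurable.mul (measurable_id.pow_const _) ?_
    have hh : Measurable fun s : ℝ => σ₂ (ball x₀ s) :=
      (measurable_ball_measure σ₂).comp (measurable_const.prodMk measurable_id)
    exact hh.ennreal_toReal
  have hlin : ∫⁻ s in Ioc (0:ℝ) (8 * t),
      ENNReal.ofReal (s ^ (1 - (m : ℤ)) * σ₂.real (ball x₀ s)) = pot m σ₂ t x₀ := by
    unfold pot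
    refine setLIntegral_congr_fun measurableSet_Ioc fun s hs => ?_
    show ENNReal.ofReal (s ^ (1 - (m : ℤ)) * σ₂.real (ball x₀ s)) = _
    rw [ENNReal.ofReal_mul (zpow_nonneg hs.1.le _), measureReal_def,
      ENNReal.ofReal_toReal (measure_ne_top _ _)]
  have hnn : 0 ≤ᵐ[(volume : Measure ℝ).restrict (Ioc 0 (8 * t))]
      fun s : ℝ => s ^ (1 - (m : ℤ)) * σ₂.real (ball x₀ s) := by
    filter_upwards [ae_restrict_mem measurableSet_Ioc] with s hs
    exact mul_nonneg (zpow_nonneg hs.1.le _) measureReal_nonneg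
  refine ⟨x₀, hx₀, hmax σ₁ h1, hmax σ₂ h2, ?_, ?_⟩
  · rw [intervalIntegrable_iff, uIoc_of_le (by positivity)]
    refine ⟨hmeas.aestronglyMeasurable, ?_⟩
    rw [hasFiniteIntegral_iff_ofReal hnn, hlin]
    exact lt_of_le_of_lt hpot ENNReal.ofReal_lt_top
  · rw [intervalIntegral.integral_of_le (by positivity),
      integral_eq_lintegral_of_nonneg_ae hnn hmeas.aestronglyMeasurable, hlin]
    refine ENNReal.toReal_le_of_le_ofReal ?_ hpot
    have := zpow_nonneg ht.le (2 - (m : ℤ))
    positivity

/-- **Good centre.** -/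
theorem good_center {F : Type*} [NormedAddCommGroup F] [InnerProductSpace ℝ F]
    [FiniteDimensional ℝ F] [MeasurableSpace F] [BorelSpace F] {m : ℕ} (hm : finrank ℝ F = m)
    (σ₁ σ₂ : Measure F) [IsFiniteMeasure σ₁] [IsFiniteMeasure σ₂] (p : F) {t : ℝ} (ht : 0 < t) :
    ∃ x₀ ∈ ball p t,
        (∀ s, 0 < s → s ≤ 8 * t →
          σ₁.real (ball x₀ s) ≤ Cgc m * (s / t) ^ m * σ₁.real (ball p (9 * t))) ∧
        (∀ s, 0 < s → s ≤ 8 * t →
          σ₂.real (ball x₀ s) ≤ Cgc m * (s / t) ^ m * σ₂.real (ball p (9 * t))) ∧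
        (∀ a, 0 < a → a ≤ 8 * t →
          ∫ s in a..(8 * t), s ^ (1 - (m : ℤ)) * σ₂.real (ball x₀ s)
            ≤ Cgc m * t ^ (2 - (m : ℤ)) * σ₂.real (ball p (9 * t))) := by
  obtain ⟨x₀, hx₀, h1, h2, h3, h4⟩ := good_center_int hm σ₁ σ₂ p ht
  refine ⟨x₀, hx₀, fun s hs hs' => ?_, fun s hs hs' => ?_, fun a ha ha' => ?_⟩
  · refine (h1 s ⟨hs, hs'⟩).trans_eq ?_
    rw [div_pow]; ring
  · refine (h2 s ⟨hs, hs'⟩).trans_eq ?_
    rw [div_pow]; ring
  · refine le_trans ?_ h4
    rw [intervalIntegral.integral_of_le ha', intervalIntegral.integral_of_le (by positivity)]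
    refine setIntegral_mono_set ?_ ?_ ?_
    · rw [intervalIntegrable_iff, uIoc_of_le (by positivity)] at h3
      exact h3
    · filter_upwards [ae_restrict_mem measurableSet_Ioc] with s hs
      exact mul_nonneg (zpow_nonneg hs.1.le _) measureReal_nonneg
    · exact (Ioc_subset_Ioc_left ha.le).eventuallyLE

end Vale.Agent.P214.QP
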