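import Vale.Agent.P214.QP.Push
import Vale.Agent.P214.QP.Max

/-!
# P214, block QP: the `Q`-valued Poincaré inequality at small excess
-/

open Set Filter Topology MeasureTheory Metric
open scoped RealInnerProductSpace

set_option linter.all false

namespace Vale.Agent.P214.QP

open Vale.Agent.P214.FV Vale.Agent.P214.ODE

variable {E : Type*} [NormedAddCommGroup E] [InnerProductSpace ℝ E] [FiniteDimensional ℝ E]
  [MeasurableSpace E] [BorelSpace E]
variable {m : ℕ} {T : Submodule ℝ E} {G : Set E} {h : ℝ} {ν : Measure E} {P : E → E →L[ℝ] E}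

/-- the statement about good centres in the base plane used below -/
def GoodCenters (m : ℕ) (T : Submodule ℝ E) (Cg : ℝ) : Prop :=
  ∀ (σ₁ σ₂ : Measure T) [IsFiniteMeasure σ₁] [IsFiniteMeasure σ₂] (p : T) (t : ℝ), 0 < t →
    ∃ x0 ∈ ball p t,
      (∀ s, 0 < s → s ≤ 8 * t → σ₁.real (ball x0 s) ≤ Cg * (s / t) ^ m * σ₁.real (ball p (9 * t))) ∧
      (∀ s, 0 < s → s ≤ 8 * t → σ₂.real (ball x0 s) ≤ Cg * (s / t) ^ m * σ₂.real (ball p (9 * t))) ∧
      (∀ a, 0 < a → a ≤ 8 * t → ∫ s in a..(8 * t), s ^ (1 - (m : ℤ)) * σ₂.real (ball x0 s)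
        ≤ Cg * t ^ (2 - (m : ℤ)) * σ₂.real (ball p (9 * t)))

/-- The data produced at a base point `x0` near `p`: see `exists_goodBase`. -/
structure GoodPoint (m : ℕ) (T : Submodule ℝ E) (G : Set E) (ν : Measure E) (P : E → E →L[ℝ] E)
    (c0 δ t Cg : ℝ) (p x0 : E) : Prop where
  near : ‖x0 - p‖ < t
  good : GoodBase m T G ν P c0 δ (8 * t) x0
  mass : ∀ s, 0 < s → s ≤ 8 * t → ν.real (bset T x0 s) ≤ Cg * (s / t) ^ m * ν.real (bset T p (40 * t))
  exc : ∀ s, 0 < s → s ≤ 32 * t → Dex T P ν x0 s ≤ Cg * (s / t) ^ m * Dex T P ν p (40 * t)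
  dini : ∀ a, 0 < a → a ≤ 8 * t → ∫ s in a..(8 * t), s ^ (1 - (m : ℤ)) * Dex T P ν x0 s
        ≤ Cg * t ^ (2 - (m : ℤ)) * Dex T P ν p (40 * t)

/-- **Existence of good base points.** -/
theorem exists_goodPoint (hC : CylStat m T G h ν P) {Cg : ℝ} (hCg : 1 ≤ Cg)
    (hgc : GoodCenters m T Cg) {c0 δ t : ℝ} {p : E} (hp : p ∈ T) (ht : 0 < t)
    (hG : BallIn T G p (50 * t))
    (hlow : ∀ y ∈ ν.support, ‖bx T p y‖ ≤ 9 * t → ∀ s, 0 < s → s ≤ 8 * t →
      c0 * s ^ m ≤ ν.real (closedBall y s))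
    (hexc : Cg * Dex T P ν p (40 * t) ≤ δ * t ^ m) :
    ∃ x0 ∈ T, GoodPoint m T G ν P c0 δ t Cg p x0 := by
  haveI := hC.fin
  haveI := pmass_finite (T := T) (ν := ν)
  haveI := pexc_finite hC
  obtain ⟨x0, hx0, h1, h2, h3⟩ := hgc (pmass T ν) (pexc T P ν) ⟨p, hp⟩ t ht
  have hpp : T.starProjection p = p := Submodule.starProjection_eq_self_iff.2 hp
  have hxx : T.starProjection (x0 : E) = x0 := Submodule.starProjection_eq_self_iff.2 x0.2
  have hnear : ‖(x0 : E) - p‖ < t := by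
    rw [mem_ball, dist_eq_norm] at hx0
    exact hx0
  have hD0 : 0 ≤ Dex T P ν p (40 * t) := Dex_nonneg (z := p) hC _
  have hm1 : (pmass T ν).real (ball (⟨p, hp⟩ : T) (9 * t)) ≤ ν.real (bset T p (40 * t)) := by
    rw [pmass_ball _ (by positivity)]
    exact measureReal_mono (bset_mono (by positivity) (by linarith))
  have hm2 : (pexc T P ν).real (ball (⟨p, hp⟩ : T) (9 * t)) ≤ Dex T P ν p (40 * t) := by
    rw [pexc_ball hC _ (by positivity)]
    exact Dex_mono (z := p) hC (by positivity) (by linarith)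
  have hexc' : ∀ s, 0 < s → s ≤ 32 * t →
      Dex T P ν (x0 : E) s ≤ Cg * (s / t) ^ m * Dex T P ν p (40 * t) := by
    intro s hs hst
    rcases le_total s (8 * t) with h8 | h8
    · have := h2 s hs h8
      rw [pexc_ball hC _ hs.le] at this
      exact this.trans (by gcongr)
    · have e1 : Dex T P ν (x0 : E) s ≤ Dex T P ν p (40 * t) := by
        refine Dex_mono_set hC (bset_subset hs.le ?_)
        rw [hpp, hxx]; linarith
      have e2 : (1:ℝ) ≤ (s / t) ^ m := one_le_pow₀ (by rw [one_le_div ht]; linarith)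
      calc Dex T P ν (x0 : E) s ≤ 1 * 1 * Dex T P ν p (40 * t) := by rw [one_mul, one_mul]; exact e1
        _ ≤ Cg * (s / t) ^ m * Dex T P ν p (40 * t) := by gcongr
  refine ⟨x0, x0.2, hnear, ⟨x0.2, ?_, ?_, ?_⟩, ?_, hexc', ?_⟩
  · intro x hx hx2
    refine hG x hx ?_
    rw [hpp]
    rw [hxx] at hx2
    calc ‖x - p‖ = ‖(x - x0) + ((x0 : E) - p)‖ := by congr 1; abel
      _ ≤ 5 * (8 * t) + t := (norm_add_le _ _).trans (add_le_add hx2 hnear.le)
      _ ≤ 50 * t := by linarith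
  · intro s hs hst
    refine (hexc' s hs (by linarith)).trans ?_
    calc Cg * (s / t) ^ m * Dex T P ν p (40 * t)
        = (s / t) ^ m * (Cg * Dex T P ν p (40 * t)) := by ring
      _ ≤ (s / t) ^ m * (δ * t ^ m) := by gcongr
      _ = δ * s ^ m := by rw [div_pow]; field_simp
  · intro y hy hyt s hs hst
    refine hlow y hy ?_ s hs hst
    rw [bx_of_mem hp]
    rw [bx_of_mem x0.2] at hyt
    calc ‖T.starProjection y - p‖ = ‖(T.starProjection y - x0) + ((x0 : E) - p)‖ := by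
          congr 1; abel
      _ ≤ 8 * t + t := (norm_add_le _ _).trans (add_le_add hyt hnear.le)
      _ = 9 * t := by ring
  · intro s hs hst
    have := h1 s hs hst
    rw [pmass_ball _ hs.le] at this
    exact this.trans (by gcongr)
  · intro a ha hat
    have h4 := h3 a ha hat
    have e1 : ∫ s in a..(8 * t), s ^ (1 - (m : ℤ)) * (pexc T P ν).real (ball x0 s)
        = ∫ s in a..(8 * t), s ^ (1 - (m : ℤ)) * Dex T P ν (x0 : E) s := by
      refine intervalIntegral.integral_congr fun s hs => ?_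
      rw [uIcc_of_le hat] at hs
      rw [pexc_ball hC _ (ha.le.trans hs.1)]
    rw [e1] at h4
    refine h4.trans ?_
    have : 0 ≤ Cg * t ^ (2 - (m : ℤ)) := by positivity
    gcongr

/-- **Q-valued Poincaré inequality.** -/
theorem GoodPoint.qpoincare (hC : CylStat m T G h ν P) {Cg : ℝ} (hCg : 1 ≤ Cg) {c0 ε δ t A : ℝ}
    {p x0 : E} (hc0 : 0 < c0) (hε : 0 < ε) (hε1 : ε ≤ 1)
    (hδ : δ ≤ c0 * ε ^ (m + 3) / (64 ^ m * 40000)) (ht : 0 < t)
    (hmass : ν.real (bset T p (40 * t)) ≤ A * t ^ m)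
    (hg : GoodPoint m T G ν P c0 δ t Cg p x0) :
    ∃ S : Finset E, (∀ c, c ∈ S ↔ c ∈ fib T ν x0) ∧ (S.card : ℝ) ≤ Cg * A * 2 ^ m / c0 ∧
      (∀ y ∈ ν.support, ‖bx T x0 y‖ ≤ 8 * t → ∃ c ∈ S, ‖co T y - c‖ ≤ 2 * ε * ‖bx T x0 y‖) ∧
      ∫ y in bset T x0 (4 * t), infDist (co T y) S ^ 2 ∂ν
        ≤ 57 * 8 ^ m * Cg * t ^ 2 * Dex T P ν p (40 * t) := by
  haveI := hC.fin
  have hA : ∀ s, 0 < s → s ≤ 8 * t → ν.real (bset T x0 s) ≤ Cg * A * s ^ m := by
    intro s hs hst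
    refine (hg.mass s hs hst).trans ?_
    calc Cg * (s / t) ^ m * ν.real (bset T p (40 * t)) ≤ Cg * (s / t) ^ m * (A * t ^ m) := by
          gcongr
      _ = Cg * A * s ^ m := by rw [div_pow]; field_simp
  have h8 : 0 < 8 * t := by positivity
  have hfin : (fib T ν x0).Finite := fib_finite hg.good.mem hc0 h8 (hg.good.fib_low h8) hA
  have hmem : ∀ c, c ∈ hfin.toFinset ↔ c ∈ fib T ν x0 := fun c => by rw [Set.Finite.mem_toFinset]
  refine ⟨hfin.toFinset, hmem, ?_, ?_, ?_⟩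
  · refine fib_card_le hg.good.mem hc0 h8 (hg.good.fib_low h8) hA _ ?_
    intro c hc; exact (hmem c).1 hc
  · intro y hy hyt
    obtain ⟨c, hc, h1⟩ := hg.good.cone hC hc0 hε hε1 hδ h8 hy hyt
    exact ⟨c, (hmem c).2 hc, h1⟩
  · have hδ1 : δ ≤ c0 / (64 ^ m * 40000) := by
      refine hδ.trans ?_
      gcongr
      have : ε ^ (m + 3) ≤ 1 := pow_le_one₀ hε.le hε1
      nlinarith
    have h1 := hg.good.poincare hC hc0 hδ1 h8 hA hg.dini
    rw [Set.Finite.coe_toFinset]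
    have e1 : 8 * t / 2 = 4 * t := by ring
    rw [e1] at h1
    refine h1.trans (le_of_eq ?_)
    have e2 : t ^ (2 - (m : ℤ)) = t ^ 2 * (t ^ m)⁻¹ := by
      rw [sub_eq_add_neg, zpow_add₀ ht.ne', zpow_neg, zpow_natCast]; norm_cast
    rw [e2, mul_pow]
    field_simp

lemma one_le_Cgc (m : ℕ) : 1 ≤ Cgc m := by
  unfold Cgc
  have : (0:ℝ) ≤ 4 * 5 ^ m := by positivity
  linarith

lemma goodCenters (hT : Module.finrank ℝ T = m) : GoodCenters m T (Cgc m) := by
  intro σ₁ σ₂ _ _ p t ht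
  exact good_center hT σ₁ σ₂ p ht

/-- the smallness constant -/
noncomputable def dQP (m : ℕ) (c0 ε : ℝ) : ℝ := c0 * ε ^ (m + 3) / (64 ^ m * 40000) / Cgc m

lemma dQP_pos (m : ℕ) {c0 ε : ℝ} (hc0 : 0 < c0) (hε : 0 < ε) : 0 < dQP m c0 ε := by
  have := Cgc_pos m
  unfold dQP; positivity

/-- **Representatives and Q-valued Poincaré inequality at small excess** (all constants explicit, no
integrality). `V` is cylindrically stationary over the base ball of radius `50 t` about `p`, its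
support points have lower density `c0`; the mass over the base ball of radius `40 t` is at most
`A t^m` and the tilt excess there is at most `dQP m c0 ε * t^m`.  Then there is a base point `x0`
with `|x0 - p| < t` such that the fibre of the support over `x0` is finite with at most
`Cgc m * A * 2^m / c0` points, every support point over `|x - x0| ≤ 8 t` is `2 ε |x - x0|` close in
height to the fibre, and the heights over `|x - x0| < 4 t` are `L²` close to the fibre. -/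
theorem qpoincare (hC : CylStat m T G h ν P) {c0 ε t A : ℝ} {p : E} (hp : p ∈ T) (hc0 : 0 < c0)
    (hε : 0 < ε) (hε1 : ε ≤ 1) (ht : 0 < t) (hG : BallIn T G p (50 * t))
    (hlow : ∀ y ∈ ν.support, ‖bx T p y‖ ≤ 9 * t → ∀ s, 0 < s → s ≤ 8 * t →
      c0 * s ^ m ≤ ν.real (closedBall y s))
    (hmass : ν.real (bset T p (40 * t)) ≤ A * t ^ m)
    (hexc : Dex T P ν p (40 * t) ≤ dQP m c0 ε * t ^ m) :
    ∃ x0 ∈ T, ∃ S : Finset E,
      GoodPoint m T G ν P c0 (c0 * ε ^ (m + 3) / (64 ^ m * 40000)) t (Cgc m) p x0 ∧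
      (∀ c, c ∈ S ↔ c ∈ Tᗮ ∧ x0 + c ∈ ν.support) ∧ (S.card : ℝ) ≤ Cgc m * A * 2 ^ m / c0 ∧
      (∀ y ∈ ν.support, ‖bx T x0 y‖ ≤ 8 * t → ∃ c ∈ S, ‖co T y - c‖ ≤ 2 * ε * ‖bx T x0 y‖) ∧
      ∫ y in bset T x0 (4 * t), infDist (co T y) S ^ 2 ∂ν
        ≤ 57 * 8 ^ m * Cgc m * t ^ 2 * Dex T P ν p (40 * t) := by
  have hexc' : Cgc m * Dex T P ν p (40 * t) ≤ c0 * ε ^ (m + 3) / (64 ^ m * 40000) * t ^ m := by
    have h0 := Cgc_pos m
    calc Cgc m * Dex T P ν p (40 * t) ≤ Cgc m * (dQP m c0 ε * t ^ m) := by gcongr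
      _ = _ := by unfold dQP; field_simp
  obtain ⟨x0, hx0, hg⟩ := exists_goodPoint hC (one_le_Cgc m) (goodCenters hC.dimT) hp ht hG hlow hexc'
  obtain ⟨S, h1, h2, h3, h4⟩ := hg.qpoincare hC (one_le_Cgc m) hc0 hε hε1 le_rfl ht hmass
  exact ⟨x0, hx0, S, hg, h1, h2, h3, h4⟩

end Vale.Agent.P214.QP
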