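import Vale.Agent.P214.QP.Good

/-!
# P214, block QP: push-forward of mass and excess to the base plane
-/

open Set Filter Topology MeasureTheory Metric
open scoped RealInnerProductSpace

set_option linter.all false

namespace Vale.Agent.P214.QP

open Vale.Agent.P214.FV Vale.Agent.P214.ODE

variable {E : Type*} [NormedAddCommGroup E] [InnerProductSpace ℝ E] [FiniteDimensional ℝ E]
  [MeasurableSpace E] [BorelSpace E]
variable {m : ℕ} {T : Submodule ℝ E} {G : Set E} {h : ℝ} {ν : Measure E} {P : E → E →L[ℝ] E}

/-- push-forward of the mass to the base plane -/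
noncomputable def pmass (T : Submodule ℝ E) (ν : Measure E) : Measure T :=
  ν.map T.orthogonalProjection

/-- push-forward of the excess to the base plane -/
noncomputable def pexc (T : Submodule ℝ E) (P : E → E →L[ℝ] E) (ν : Measure E) : Measure T :=
  (ν.withDensity fun y => ENNReal.ofReal (ODE.tilt T P y)).map T.orthogonalProjection

omit [FiniteDimensional ℝ E] in
lemma coe_orthogonalProjection [FiniteDimensional ℝ E] (T : Submodule ℝ E) (y : E) :
    ((T.orthogonalProjection y : T) : E) = T.starProjection y := rfl

lemma preimage_ball (x : T) {s : ℝ} (hs : 0 ≤ s) :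
    T.orthogonalProjection ⁻¹' (ball x s) = bset T (x : E) s := by
  ext y
  rw [mem_bset hs, mem_preimage, mem_ball, dist_eq_norm, bx_of_mem x.2]
  rw [← coe_orthogonalProjection, ← Submodule.coe_sub, Submodule.coe_norm]

lemma pmass_finite [IsFiniteMeasure ν] : IsFiniteMeasure (pmass T ν) := by
  unfold pmass; infer_instance

lemma pexc_finite (hC : CylStat m T G h ν P) : IsFiniteMeasure (pexc T P ν) := by
  have h1 : IsFiniteMeasure (ν.withDensity fun y => ENNReal.ofReal (ODE.tilt T P y)) :=
    isFiniteMeasure_withDensity_ofReal (integrable_tilt hC).2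
  unfold pexc; infer_instance

lemma pmass_ball [IsFiniteMeasure ν] (x : T) {s : ℝ} (hs : 0 ≤ s) :
    (pmass T ν).real (ball x s) = ν.real (bset T (x : E) s) := by
  unfold pmass
  rw [map_measureReal_apply T.orthogonalProjection.continuous.measurable measurableSet_ball,
    preimage_ball x hs]

lemma pexc_ball (hC : CylStat m T G h ν P) (x : T) {s : ℝ} (hs : 0 ≤ s) :
    (pexc T P ν).real (ball x s) = Dex T P ν (x : E) s := by
  unfold pexc
  rw [map_measureReal_apply T.orthogonalProjection.continuous.measurable measurableSet_ball,
    preimage_ball x hs, Measure.real, withDensity_apply _ (measurableSet_bset T _ s), Dex,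
    integral_eq_lintegral_of_nonneg_ae (tilt_restrict_nonneg hC _)
      (integrable_tilt hC).aestronglyMeasurable.restrict]

end Vale.Agent.P214.QP
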