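import Vale.Agent.P214.QP.Mean

/-!
# P214, block QP: the soft minimum of the squared distances to finitely many heights

`F_τ = -τ² log ((1/k) ∑_c exp (-|q y - c|²/(2 τ²)))`: smooth, `0 ≤ F`, `D²F(v,v) ≤ |q v|²`,
`min_c |q y - c|²/2 ≤ F ≤ |q y - c|²/2 + τ² log k` for every `c`.
-/

open Set Filter Topology MeasureTheory Metric
open scoped RealInnerProductSpace

set_option linter.all false

namespace Vale.Agent.P214.QP

open Vale.Agent.P214.FV Vale.Agent.P214.ODE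

variable {E : Type*} [NormedAddCommGroup E] [InnerProductSpace ℝ E] [FiniteDimensional ℝ E]

/-- the half squared distance of heights -/
noncomputable def qd (T : Submodule ℝ E) (c y : E) : ℝ := ‖hgt T c y‖ ^ 2 / 2

lemma qd_nonneg (T : Submodule ℝ E) (c y : E) : 0 ≤ qd T c y := by unfold qd; positivity

/-- the exponential weights -/
noncomputable def ew (T : Submodule ℝ E) (τ : ℝ) (c y : E) : ℝ := Real.exp (-(qd T c y / τ ^ 2))

lemma ew_pos (T : Submodule ℝ E) (τ : ℝ) (c y : E) : 0 < ew T τ c y := Real.exp_pos _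

/-- partition function -/
noncomputable def zf (T : Submodule ℝ E) (S : Finset E) (τ : ℝ) (y : E) : ℝ := ∑ c ∈ S, ew T τ c y

lemma zf_pos (T : Submodule ℝ E) {S : Finset E} (hS : S.Nonempty) (τ : ℝ) (y : E) :
    0 < zf T S τ y := Finset.sum_pos (fun c _ => ew_pos T τ c y) hS

/-- the soft minimum -/
noncomputable def soft (T : Submodule ℝ E) (S : Finset E) (τ : ℝ) (y : E) : ℝ :=
  -(τ ^ 2 * Real.log (zf T S τ y / S.card))

/-- the weights -/
noncomputable def pw (T : Submodule ℝ E) (S : Finset E) (τ : ℝ) (c y : E) : ℝ :=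
  ew T τ c y / zf T S τ y

lemma pw_nonneg (T : Submodule ℝ E) {S : Finset E} (hS : S.Nonempty) (τ : ℝ) (c y : E) :
    0 ≤ pw T S τ c y := div_nonneg (ew_pos T τ c y).le (zf_pos T hS τ y).le

lemma pw_sum (T : Submodule ℝ E) {S : Finset E} (hS : S.Nonempty) (τ : ℝ) (y : E) :
    ∑ c ∈ S, pw T S τ c y = 1 := by
  unfold pw
  rw [← Finset.sum_div]
  exact div_self (zf_pos T hS τ y).ne'

lemma contDiff_qd {n : WithTop ℕ∞} (T : Submodule ℝ E) (c : E) : ContDiff ℝ n (qd T c) :=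
  ((contDiff_hgt T c).norm_sq ℝ).div_const 2

lemma contDiff_ew {n : WithTop ℕ∞} (T : Submodule ℝ E) (τ : ℝ) (c : E) : ContDiff ℝ n (ew T τ c) :=
  Real.contDiff_exp.comp (((contDiff_qd T c).div_const _).neg)

lemma contDiff_zf {n : WithTop ℕ∞} (T : Submodule ℝ E) (S : Finset E) (τ : ℝ) :
    ContDiff ℝ n (zf T S τ) := by
  unfold zf
  exact ContDiff.sum fun c _ => contDiff_ew T τ c

lemma contDiff_soft {n : WithTop ℕ∞} (T : Submodule ℝ E) {S : Finset E} (hS : S.Nonempty) (τ : ℝ) :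
    ContDiff ℝ n (soft T S τ) := by
  unfold soft
  refine (contDiff_const.mul (((contDiff_zf T S τ).div_const _).log fun y => ?_)).neg
  have := zf_pos T hS τ y
  have h2 : (0:ℝ) < S.card := by exact_mod_cast Finset.card_pos.2 hS
  positivity

lemma hasFDerivAt_qd {T : Submodule ℝ E} {c : E} (hc : c ∈ Tᗮ) (y : E) :
    HasFDerivAt (qd T c) (innerSL ℝ (hgt T c y)) y := by
  have h1 : HasFDerivAt (fun y => ‖hgt T c y‖ ^ 2) (2 • (innerSL ℝ (hgt T c y)).comp (co T)) y :=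
    (hasFDerivAt_hgt T c y).norm_sq
  have h2 := h1.mul_const (1 / 2)
  have h3 : co T (hgt T c y) = hgt T c y := by
    rw [co_eq]; exact Submodule.starProjection_eq_self_iff.2 (hgt_mem hc y)
  have h4 : qd T c = fun y => ‖hgt T c y‖ ^ 2 * (1 / 2) := by funext y; unfold qd; ring
  rw [h4]
  refine h2.congr_fderiv ?_
  ext v
  simp only [ContinuousLinearMap.smul_apply, ContinuousLinearMap.comp_apply, innerSL_apply_apply,
    smul_eq_mul, nsmul_eq_mul]
  rw [← inner_co, h3]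
  push_cast
  ring

lemma hasFDerivAt_ew {T : Submodule ℝ E} {c : E} (hc : c ∈ Tᗮ) (τ : ℝ) (y : E) :
    HasFDerivAt (ew T τ c) ((-(ew T τ c y / τ ^ 2)) • innerSL ℝ (hgt T c y)) y := by
  have h1 := ((hasFDerivAt_qd hc y).mul_const (-(1 / τ ^ 2))).exp
  have h4 : ew T τ c = fun y => Real.exp (qd T c y * -(1 / τ ^ 2)) := by
    funext y; unfold ew; congr 1; ring
  rw [h4]
  refine h1.congr_fderiv ?_
  ext v
  simp only [ContinuousLinearMap.smul_apply, innerSL_apply_apply, smul_eq_mul]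
  ring

lemma hasFDerivAt_zf {T : Submodule ℝ E} {S : Finset E} (hS : ∀ c ∈ S, c ∈ Tᗮ) (τ : ℝ) (y : E) :
    HasFDerivAt (zf T S τ) (∑ c ∈ S, (-(ew T τ c y / τ ^ 2)) • innerSL ℝ (hgt T c y)) y := by
  unfold zf
  exact HasFDerivAt.fun_sum fun c hc => hasFDerivAt_ew (hS c hc) τ y

/-- the gradient field -/
noncomputable def gf (T : Submodule ℝ E) (S : Finset E) (τ : ℝ) (y : E) : E :=
  ∑ c ∈ S, pw T S τ c y • hgt T c y

lemma fderiv_soft {T : Submodule ℝ E} {S : Finset E} (hSn : S.Nonempty) (hS : ∀ c ∈ S, c ∈ Tᗮ)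
    {τ : ℝ} (hτ : τ ≠ 0) (y v : E) : fderiv ℝ (soft T S τ) y v = ⟪gf T S τ y, v⟫ := by
  have hZ := zf_pos T hSn τ y
  have hk : (0:ℝ) < S.card := by exact_mod_cast Finset.card_pos.2 hSn
  have h1 := (((hasFDerivAt_zf hS τ y).mul_const (1 / (S.card : ℝ))).log
    (by positivity)).const_mul (-τ ^ 2)
  have h4 : soft T S τ = fun y => -τ ^ 2 * Real.log (zf T S τ y * (1 / S.card)) := by
    funext y; unfold soft; rw [mul_one_div]; ring
  rw [h4, h1.fderiv]
  simp only [gf, sum_inner, inner_smul_left,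
    ContinuousLinearMap.smul_apply, ContinuousLinearMap.sum_apply, innerSL_apply_apply, smul_eq_mul,
    RCLike.conj_to_real, pw]
  rw [Finset.mul_sum, Finset.mul_sum, Finset.mul_sum]
  refine Finset.sum_congr rfl fun c _ => ?_
  field_simp

lemma hasFDerivAt_pw {T : Submodule ℝ E} {S : Finset E} (hSn : S.Nonempty) (hS : ∀ c ∈ S, c ∈ Tᗮ)
    {τ : ℝ} {c : E} (hc : c ∈ Tᗮ) (y : E) :
    HasFDerivAt (pw T S τ c) ((-(pw T S τ c y / τ ^ 2)) • (innerSL ℝ (hgt T c y)
      - ∑ d ∈ S, pw T S τ d y • innerSL ℝ (hgt T d y))) y := by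
  have hZ := zf_pos T hSn τ y
  have h0 : HasFDerivAt (fun y => (zf T S τ y)⁻¹) _ y :=
    (hasDerivAt_inv hZ.ne').comp_hasFDerivAt y (hasFDerivAt_zf hS τ y)
  have h1 := (hasFDerivAt_ew hc τ y).mul h0
  have h2 : HasFDerivAt (pw T S τ c) _ y := h1
  refine h2.congr_fderiv ?_
  ext v
  simp only [ContinuousLinearMap.smul_apply, ContinuousLinearMap.sub_apply,
    ContinuousLinearMap.add_apply,
    ContinuousLinearMap.sum_apply, innerSL_apply_apply, smul_eq_mul, pw]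
  have e1 : ∑ d ∈ S, -(ew T τ d y / τ ^ 2) * ⟪hgt T d y, v⟫
      = -(1 / τ ^ 2) * ∑ d ∈ S, ew T τ d y * ⟪hgt T d y, v⟫ := by
    rw [Finset.mul_sum]; exact Finset.sum_congr rfl fun d _ => by ring
  have e2 : ∑ d ∈ S, ew T τ d y / zf T S τ y * ⟪hgt T d y, v⟫
      = 1 / zf T S τ y * ∑ d ∈ S, ew T τ d y * ⟪hgt T d y, v⟫ := by
    rw [Finset.mul_sum]; exact Finset.sum_congr rfl fun d _ => by ring
  rw [e1, e2]
  field_simp
  ring

/-- **Hessian bound.** -/
lemma hess_soft_le {T P' : Submodule ℝ E} {S : Finset E} (hSn : S.Nonempty)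
    (hS : ∀ c ∈ S, c ∈ Tᗮ) {τ : ℝ} (hτ : τ ≠ 0) (y : E) :
    hess (soft T S τ) P'.starProjection y ≤ 1 * FV.tilt T P'.starProjection := by
  have hgrad : grad (soft T S τ) = gf T S τ := by
    funext y
    refine ext_inner_right ℝ fun v => ?_
    rw [inner_grad, fderiv_soft hSn hS hτ]
  have hd : HasFDerivAt (gf T S τ) (∑ c ∈ S, (pw T S τ c y • co T
      + ((-(pw T S τ c y / τ ^ 2)) • (innerSL ℝ (hgt T c y)
      - ∑ d ∈ S, pw T S τ d y • innerSL ℝ (hgt T d y))).smulRight (hgt T c y))) y := by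
    unfold gf
    exact HasFDerivAt.fun_sum fun c hc =>
      (hasFDerivAt_pw hSn hS (hS c hc) y).smul (hasFDerivAt_hgt T c y)
  refine hess_le_tilt fun v => ?_
  rw [hgrad, hd.fderiv]
  simp only [ContinuousLinearMap.sum_apply, ContinuousLinearMap.add_apply,
    ContinuousLinearMap.smul_apply, ContinuousLinearMap.smulRight_apply,
    ContinuousLinearMap.sub_apply, innerSL_apply_apply, smul_eq_mul, inner_sum, inner_add_right,
    inner_smul_right]
  set a : E → ℝ := fun c => ⟪hgt T c y, v⟫ with ha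
  have e1 : ∑ d ∈ S, pw T S τ d y * ⟪hgt T d y, v⟫ = ∑ d ∈ S, pw T S τ d y * a d := rfl
  rw [Finset.sum_add_distrib, ← Finset.sum_mul, pw_sum T hSn]
  have e2 : ⟪v, co T v⟫ = ‖co T v‖ ^ 2 := by
    rw [← real_inner_self_eq_norm_sq, inner_co, co_self]
  rw [e2]
  simp only [one_mul]
  have e3 : ∑ c ∈ S, -(pw T S τ c y / τ ^ 2) * (⟪hgt T c y, v⟫
      - ∑ d ∈ S, pw T S τ d y * ⟪hgt T d y, v⟫) * ⟪v, hgt T c y⟫
      = -(1 / τ ^ 2) * (∑ c ∈ S, pw T S τ c y * a c ^ 2 - (∑ c ∈ S, pw T S τ c y * a c) ^ 2) := by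
    rw [sq (∑ c ∈ S, pw T S τ c y * a c)]
    conv_rhs => rw [Finset.sum_mul, ← Finset.sum_sub_distrib, Finset.mul_sum]
    refine Finset.sum_congr rfl fun c _ => ?_
    rw [real_inner_comm (hgt T c y) v]
    simp only [ha]
    ring
  rw [e3]
  have hvar : (∑ c ∈ S, pw T S τ c y * a c) ^ 2 ≤ ∑ c ∈ S, pw T S τ c y * a c ^ 2 := by
    have h1 : (∑ c ∈ S, pw T S τ c y * a c) ^ 2
        ≤ (∑ c ∈ S, pw T S τ c y) * ∑ c ∈ S, pw T S τ c y * a c ^ 2 := by
      refine Finset.sum_sq_le_sum_mul_sum_of_sq_eq_mul S (fun c _ => pw_nonneg T hSn τ c y)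
        (fun c _ => mul_nonneg (pw_nonneg T hSn τ c y) (sq_nonneg _)) fun c _ => ?_
      ring
    rwa [pw_sum T hSn, one_mul] at h1
  have h2 : 0 ≤ 1 / τ ^ 2 * (∑ c ∈ S, pw T S τ c y * a c ^ 2 - (∑ c ∈ S, pw T S τ c y * a c) ^ 2) :=
    mul_nonneg (by positivity) (by linarith)
  linarith

/-- upper bound for the soft minimum -/
lemma soft_le {T : Submodule ℝ E} {S : Finset E} {τ : ℝ} (hτ : τ ≠ 0) {c : E} (hc : c ∈ S) (y : E) :
    soft T S τ y ≤ qd T c y + τ ^ 2 * Real.log S.card := by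
  have hSn : S.Nonempty := ⟨c, hc⟩
  have hk : (0:ℝ) < S.card := by exact_mod_cast Finset.card_pos.2 hSn
  have h1 : ew T τ c y ≤ zf T S τ y :=
    Finset.single_le_sum (f := fun c => ew T τ c y) (fun d _ => (ew_pos T τ d y).le) hc
  have h2 : Real.log (ew T τ c y / S.card) ≤ Real.log (zf T S τ y / S.card) := by
    refine Real.log_le_log (div_pos (ew_pos _ _ _ _) hk) (by gcongr)
  rw [Real.log_div (ew_pos _ _ _ _).ne' hk.ne'] at h2
  unfold ew at h2
  rw [Real.log_exp] at h2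
  unfold soft
  have h3 : τ ^ 2 * (-(qd T c y / τ ^ 2) - Real.log S.card)
      ≤ τ ^ 2 * Real.log (zf T S τ y / S.card) := by gcongr
  have h4 : τ ^ 2 * (-(qd T c y / τ ^ 2) - Real.log S.card)
      = -(qd T c y) - τ ^ 2 * Real.log S.card := by field_simp
  linarith

/-- lower bound for the soft minimum -/
lemma le_soft {T : Submodule ℝ E} {S : Finset E} (hSn : S.Nonempty) {τ : ℝ} (hτ : τ ≠ 0) {y : E}
    {a : ℝ} (ha : ∀ c ∈ S, a ≤ qd T c y) : a ≤ soft T S τ y := by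
  have hk : (0:ℝ) < S.card := by exact_mod_cast Finset.card_pos.2 hSn
  have hZ := zf_pos T hSn τ y
  have h1 : zf T S τ y ≤ S.card * Real.exp (-(a / τ ^ 2)) := by
    unfold zf
    rw [← nsmul_eq_mul]
    refine Finset.sum_le_card_nsmul _ _ _ fun c hc => ?_
    unfold ew
    refine Real.exp_le_exp.2 (neg_le_neg ?_)
    gcongr
    exact ha c hc
  have h2 : Real.log (zf T S τ y / S.card) ≤ -(a / τ ^ 2) := by
    rw [Real.log_le_iff_le_exp (by positivity), div_le_iff₀ hk, mul_comm]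
    exact h1
  unfold soft
  have h3 : τ ^ 2 * Real.log (zf T S τ y / S.card) ≤ τ ^ 2 * (-(a / τ ^ 2)) := by gcongr
  have h4 : τ ^ 2 * (-(a / τ ^ 2)) = -a := by field_simp
  linarith

lemma soft_nonneg {T : Submodule ℝ E} {S : Finset E} (hSn : S.Nonempty) {τ : ℝ} (hτ : τ ≠ 0)
    (y : E) : 0 ≤ soft T S τ y := le_soft hSn hτ fun c _ => qd_nonneg T c y

end Vale.Agent.P214.QP
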